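import Crest.Agent.X262.Fano21.Reg

/-!
# Row 262, FANO-ALG (helper21), part 2: complete intersection cones which are smooth in
codimension one

`D : CI k σ c ι` : forms `f_1..f_c` cutting out codimension `c`, forms `p_j` of one degree cutting
out codimension two in `V(f)`, Jacobian of rank `c` on `Z0 = V(f) \ V(p)`.

* `mem_of_vanish` : a polynomial vanishing on `Z0` lies in `(f)`;
* `s2`            : a function `h` on `Z0` with `p_j ^ N * h` polynomial for all `j` is polynomial;
* `isPrime`       : `(f)` is prime; `Z0_nonempty`.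
-/

set_option autoImplicit false
set_option linter.unusedSectionVars false

open MvPolynomial IsLocalRing

namespace Crest.Agent.X262.Fano21

noncomputable section

section nz

variable {R : Type*} [CommRing R]

/-- non zero divisor modulo `I` -/
def Nz (I : Ideal R) (a : R) : Prop := ∀ b, a * b ∈ I → b ∈ I

theorem Nz.mul {I : Ideal R} {a a' : R} (h : Nz I a) (h' : Nz I a') : Nz I (a * a') :=
  fun b hb => h' b (h _ (by rwa [← mul_assoc]))

theorem Nz.pow {I : Ideal R} {a : R} (h : Nz I a) (n : ℕ) : Nz I (a ^ n) := by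
  induction n with
  | zero => intro b hb; simpa using hb
  | succ n ih => rw [pow_succ]; exact ih.mul h

theorem mem_sup_span {I : Ideal R} {a r : R} :
    r ∈ I ⊔ Ideal.span {a} ↔ ∃ u, r - a * u ∈ I := by
  constructor
  · intro h
    obtain ⟨i, hi, y, hy, rfl⟩ := Submodule.mem_sup.1 h
    obtain ⟨u, rfl⟩ := Ideal.mem_span_singleton'.1 hy
    exact ⟨u, by simpa [mul_comm] using hi⟩
  · rintro ⟨u, hu⟩
    have : r = (r - a * u) + a * u := by ring
    rw [this]
    exact Submodule.add_mem_sup hu (Ideal.mul_mem_right _ _ (Ideal.mem_span_singleton_self a))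

theorem Nz.sup_pow {I : Ideal R} {a b : R} (ha : Nz I a) (hb : Nz (I ⊔ Ideal.span {a}) b) (n : ℕ) :
    Nz (I ⊔ Ideal.span {a ^ n}) b := by
  induction n with
  | zero => intro r _; exact mem_sup_span.2 ⟨r, by simp⟩
  | succ n ih =>
    intro r hr
    obtain ⟨u, hu⟩ := mem_sup_span.1 hr
    obtain ⟨r', hr'⟩ := mem_sup_span.1 (hb r (mem_sup_span.2 ⟨a ^ n * u, by
      rwa [← mul_assoc, ← pow_succ']⟩))
    have h1 : a * (b * r' - a ^ n * u) ∈ I := by
      have : a * (b * r' - a ^ n * u) = (b * r - a ^ (n + 1) * u) - b * (r - a * r') := by ring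
      rw [this]
      exact I.sub_mem hu (I.mul_mem_left _ hr')
    obtain ⟨u', hu'⟩ := mem_sup_span.1 (ih r' (mem_sup_span.2 ⟨u, ha _ h1⟩))
    refine mem_sup_span.2 ⟨u', ?_⟩
    have : r - a ^ (n + 1) * u' = (r - a * r') + a * (r' - a ^ n * u') := by ring
    rw [this]
    exact I.add_mem hr' (I.mul_mem_left _ hu')

end nz

section null

variable {k : Type} [Field k] [IsAlgClosed k] {σ : Type} [Finite σ]

theorem pow_mem_of_vanish {J : Ideal (MvPolynomial σ k)} {r : MvPolynomial σ k}
    (h : ∀ z : σ → k, (∀ s ∈ J, eval z s = 0) → eval z r = 0) : ∃ n, r ^ n ∈ J := by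
  have h1 : r ∈ vanishingIdeal k (zeroLocus k J) := by
    rw [mem_vanishingIdeal_iff]
    intro z hz
    have := h z fun s hs => by simpa [coe_aeval_eq_eval] using hz s hs
    simpa [coe_aeval_eq_eval] using this
  rw [vanishingIdeal_zeroLocus_eq_radical] at h1
  exact h1

end null

section dual

variable {k : Type} [Field k] {σ : Type}

/-- the point `z + ε v` -/
def pt (z v : σ → k) (s : σ) : DualNumber k := TrivSqZeroExt.inl (z s) + TrivSqZeroExt.inr (v s)

@[simp] theorem fst_pt (z v : σ → k) (s : σ) : (pt z v s).fst = z s := by simp [pt]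

@[simp] theorem snd_pt (z v : σ → k) (s : σ) : (pt z v s).snd = v s := by simp [pt]

theorem fst_aeval (z v : σ → k) (r : MvPolynomial σ k) : (aeval (pt z v) r).fst = eval z r := by
  have h : (TrivSqZeroExt.fstHom k k k).comp (aeval (pt z v)) = aeval z := by
    apply MvPolynomial.algHom_ext
    intro s
    simp
  have h2 := DFunLike.congr_fun h r
  rw [← coe_aeval_eq_eval]
  exact h2

/-- the derivative of `r` at `z` in the direction `v` -/
def dv (z v : σ → k) (r : MvPolynomial σ k) : k := (aeval (pt z v) r).snd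

theorem dv_eq [Fintype σ] (z v : σ → k) (r : MvPolynomial σ k) :
    dv z v r = ∑ s, eval z (pderiv s r) * v s := by
  classical
  induction r using MvPolynomial.induction_on with
  | C a => simp [dv, TrivSqZeroExt.algebraMap_eq_inl]
  | add p q hp hq =>
    simp only [dv, map_add, TrivSqZeroExt.snd_add, add_mul, Finset.sum_add_distrib] at *
    rw [hp, hq]
  | mul_X p s hp =>
    unfold dv at *
    rw [map_mul, TrivSqZeroExt.snd_mul, fst_aeval, hp, aeval_X, fst_pt, snd_pt]
    simp only [Derivation.leibniz, pderiv_X, smul_eq_mul, map_add, map_mul, eval_X, add_mul,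
      Finset.sum_add_distrib, MulOpposite.smul_eq_mul_unop, MulOpposite.unop_op]
    congr 1
    · rw [Finset.sum_eq_single s]
      · simp
      · intro b _ hb
        simp [Pi.single_eq_of_ne (Ne.symm hb)]
      · simp
    · rw [Finset.sum_mul]
      exact Finset.sum_congr rfl fun b _ => by ring

/-- the maximal ideal of a point -/
def nn (z : σ → k) : Ideal (MvPolynomial σ k) := RingHom.ker (eval z)

theorem mem_nn {z : σ → k} {r : MvPolynomial σ k} : r ∈ nn z ↔ eval z r = 0 := Iff.rfl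

instance nn_max (z : σ → k) : (nn z).IsMaximal :=
  RingHom.ker_isMaximal_of_surjective _ fun a => ⟨C a, by simp⟩

/-- polynomials in the ideal `I` near `z` -/
def locP (I : Ideal (MvPolynomial σ k)) (z : σ → k) : Ideal (MvPolynomial σ k) :=
  (I.map (algebraMap _ (Localization.AtPrime (nn z)))).comap (algebraMap _ _)

theorem mem_locP {I : Ideal (MvPolynomial σ k)} {z : σ → k} {r : MvPolynomial σ k} :
    r ∈ locP I z ↔ ∃ s, eval z s ≠ 0 ∧ s * r ∈ I := by
  rw [locP, Ideal.mem_comap, IsLocalization.algebraMap_mem_map_algebraMap_iff (nn z).primeCompl]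
  exact ⟨fun ⟨s, hs, h⟩ => ⟨s, hs, h⟩, fun ⟨s, hs, h⟩ => ⟨s, hs, h⟩⟩

theorem le_locP (I : Ideal (MvPolynomial σ k)) (z : σ → k) : I ≤ locP I z :=
  fun r hr => mem_locP.2 ⟨1, by simp, by simpa using hr⟩

/-- **Jacobian criterion** -/
theorem locP_isPrime [Finite σ] {c : ℕ} (f : Fin c → MvPolynomial σ k) (z : σ → k)
    (hz : ∀ i, eval z (f i) = 0)
    (hj : ∀ l : Fin c → k, (∀ v : σ → k, ∑ i, l i * dv z v (f i) = 0) → l = 0) :
    (locP (Ideal.span (Set.range f)) z).IsPrime := by
  set A := Localization.AtPrime (nn z) with hA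
  have hu : ∀ v : σ → k, ∀ y : (nn z).primeCompl,
      IsUnit ((aeval (pt z v) : MvPolynomial σ k →ₐ[k] DualNumber k).toRingHom y) := by
    intro v y
    rw [TrivSqZeroExt.isUnit_iff_isUnit_fst]
    change IsUnit (aeval (pt z v) (y : MvPolynomial σ k)).fst
    rw [fst_aeval]
    exact IsUnit.mk0 _ y.2
  let θ : (σ → k) → A →+* DualNumber k := fun v => IsLocalization.lift (hu v)
  have hθ : ∀ v r, θ v (algebraMap _ A r) = aeval (pt z v) r := fun v r =>
    IsLocalization.lift_eq (hu v) r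
  have hfst : ∀ v (a : A), (θ v a).fst = (θ 0 a).fst := by
    intro v a
    have h : (TrivSqZeroExt.fstHom k k k).toRingHom.comp (θ v) =
        (TrivSqZeroExt.fstHom k k k).toRingHom.comp (θ 0) := by
      apply IsLocalization.ringHom_ext (nn z).primeCompl
      ext1
      · ext a
        change (θ v (algebraMap _ A (C a))).fst = (θ 0 (algebraMap _ A (C a))).fst
        rw [hθ, hθ, fst_aeval, fst_aeval]
      · rename_i s
        change (θ v (algebraMap _ A (X s))).fst = (θ 0 (algebraMap _ A (X s))).fst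
        rw [hθ, hθ, fst_aeval, fst_aeval]
    exact DFunLike.congr_fun h a
  have hmax : ∀ v (a : A), a ∈ maximalIdeal A ↔ (θ v a).fst = 0 := by
    intro v a
    constructor
    · intro ha
      obtain ⟨⟨r, s⟩, rfl⟩ := IsLocalization.mk'_surjective (nn z).primeCompl a
      have hr : r ∈ nn z := (IsLocalization.AtPrime.mk'_mem_maximal_iff A (nn z) r s).1 ha
      have h1 : θ v (IsLocalization.mk' A r s) * θ v (algebraMap _ A (s : MvPolynomial σ k)) =
          θ v (algebraMap _ A r) := by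
        rw [← map_mul, IsLocalization.mk'_spec]
      have h2 := congrArg TrivSqZeroExt.fst h1
      rw [TrivSqZeroExt.fst_mul, hθ, hθ, fst_aeval, fst_aeval, mem_nn.1 hr] at h2
      exact (mul_eq_zero.1 h2).resolve_right s.2
    · intro ha
      by_contra hna
      have h1 : IsUnit a := by
        by_contra h2
        exact hna h2
      have h2 := (TrivSqZeroExt.isUnit_iff_isUnit_fst).1 (h1.map (θ v))
      rw [ha] at h2
      exact not_isUnit_zero h2
  have hsq : ∀ v (a : A), a ∈ maximalIdeal A ^ 2 → (θ v a).snd = 0 := by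
    intro v a ha
    rw [pow_two] at ha
    refine Submodule.mul_induction_on ha (fun x hx y hy => ?_) (fun x y hx hy => ?_)
    · rw [map_mul, TrivSqZeroExt.snd_mul, (hmax v x).1 hx, (hmax v y).1 hy]
      simp
    · rw [map_add, TrivSqZeroExt.snd_add, hx, hy, add_zero]
  have hp := isPrime_span c A (fun i => algebraMap _ A (f i))
    (fun i => (IsLocalization.AtPrime.to_map_mem_maximal_iff A (nn z) _).2 (hz i)) (by
      intro r hr i
      have h1 := hj (fun i => (θ 0 (r i)).fst) fun v => by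
        have h2 := hsq v _ hr
        rw [map_sum, TrivSqZeroExt.snd_sum] at h2
        rw [← h2]
        refine Finset.sum_congr rfl fun i _ => ?_
        rw [map_mul, TrivSqZeroExt.snd_mul, hθ, fst_aeval, hz i, hfst v]
        simp [dv]
      exact (hmax 0 _).2 (congrFun h1 i))
  have he : (Ideal.span (Set.range f)).map (algebraMap _ A) =
      Ideal.span (Set.range fun i => algebraMap _ A (f i)) := by
    rw [Ideal.map_span, ← Set.range_comp]
    rfl
  unfold locP
  rw [he]
  exact Ideal.comap_isPrime _ _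

end dual

section weights

variable {k : Type} [Field k] {σ : Type}

/-- the action of a one parameter subgroup -/
def act (w : σ → ℕ) (t : k) (z : σ → k) : σ → k := fun s => t ^ w s * z s

theorem eval_act {w : σ → ℕ} {r : MvPolynomial σ k} {d : ℕ} (hr : r.IsWeightedHomogeneous w d)
    (t : k) (z : σ → k) : eval (act w t z) r = t ^ d * eval z r := by
  rw [eval_eq, eval_eq, Finset.mul_sum]
  refine Finset.sum_congr rfl fun m hm => ?_
  rw [← hr (mem_support_iff.1 hm), Finsupp.weight_apply, Finsupp.sum, ← Finset.prod_pow_eq_pow_sum,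
    mul_left_comm, ← Finset.prod_mul_distrib]
  congr 1
  refine Finset.prod_congr rfl fun s _ => ?_
  rw [act, mul_pow, ← pow_mul, smul_eq_mul, mul_comm (m s)]

theorem eval_smul_hom {r : MvPolynomial σ k} {d : ℕ} (hr : r.IsHomogeneous d) (t : k)
    (z : σ → k) : eval (t • z) r = t ^ d * eval z r := by
  have h : t • z = act 1 t z := by
    funext s
    simp [act]
  rw [h]
  exact eval_act hr t z

/-- a polynomial which is homogeneous along an orbit may be replaced by its component -/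
theorem eval_component [Infinite k] (w : σ → ℕ) {Q : MvPolynomial σ k} {z : σ → k} {d : ℕ} {a : k}
    (h : ∀ t : k, t ≠ 0 → eval (act w t z) Q = t ^ d * a) :
    eval z (weightedHomogeneousComponent w d Q) = a := by
  classical
  set T := insert d (Q.support.image (Finsupp.weight w)) with hT
  have hQ : Q = ∑ e ∈ T, weightedHomogeneousComponent w e Q := by
    ext m
    rw [coeff_sum]
    simp only [coeff_weightedHomogeneousComponent]
    by_cases hm : coeff m Q = 0
    · simp [hm]
    · rw [Finset.sum_ite_eq, if_pos]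
      exact Finset.mem_insert_of_mem (Finset.mem_image_of_mem _ (mem_support_iff.2 hm))
  set q : Polynomial k := ∑ e ∈ T, Polynomial.monomial e
    (eval z (weightedHomogeneousComponent w e Q)) - Polynomial.monomial d a with hq
  have h1 : q = 0 := by
    apply Polynomial.eq_zero_of_infinite_isRoot
    refine Set.Infinite.mono (s := {0}ᶜ) ?_ (Set.finite_singleton (0 : k)).infinite_compl
    intro t ht
    change q.eval t = 0
    have h2 := h t ht
    rw [hQ, map_sum] at h2
    rw [hq, Polynomial.eval_sub, Polynomial.eval_finsetSum, Polynomial.eval_monomial, mul_comm a,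
      ← h2, sub_eq_zero]
    refine Finset.sum_congr rfl fun e _ => ?_
    rw [Polynomial.eval_monomial, eval_act (weightedHomogeneousComponent_isWeightedHomogeneous e Q),
      mul_comm]
  have h2 := congrArg (fun p => p.coeff d) h1
  simp only [hq, Polynomial.coeff_sub, Polynomial.finsetSum_coeff, Polynomial.coeff_monomial,
    Finset.sum_ite_eq', Polynomial.coeff_zero, if_true] at h2
  rw [if_pos (Finset.mem_insert_self _ _)] at h2
  exact sub_eq_zero.1 h2

theorem whom_component {w w' : σ → ℕ} {Q : MvPolynomial σ k} {d' : ℕ}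
    (h : Q.IsWeightedHomogeneous w' d') (d : ℕ) :
    (weightedHomogeneousComponent w d Q).IsWeightedHomogeneous w' d' := by
  classical
  intro m hm
  rw [coeff_weightedHomogeneousComponent] at hm
  apply h
  intro h0
  simp [h0] at hm

end weights

/-- complete intersection cones, smooth in codimension one -/
structure CI (k σ : Type) [Field k] (c : ℕ) (ι : Type) where
  f : Fin c → MvPolynomial σ k
  p : ι → MvPolynomial σ k
  e : ℕ
  e_pos : 0 < e
  f_hom : ∀ i, ∃ d, 0 < d ∧ (f i).IsHomogeneous d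
  p_hom : ∀ j, (p j).IsHomogeneous e
  h1 : ∀ Q : Ideal (MvPolynomial σ k), Q.IsPrime → (∀ i, f i ∈ Q) → (c : ℕ∞) ≤ Q.height
  h2 : ∀ Q : Ideal (MvPolynomial σ k), Q.IsPrime → (∀ i, f i ∈ Q) → (∀ j, p j ∈ Q) →
    ((c + 2 : ℕ) : ℕ∞) ≤ Q.height
  jac : ∀ z : σ → k, (∀ i, eval z (f i) = 0) → (∃ j, eval z (p j) ≠ 0) →
    ∀ l : Fin c → k, (∀ v : σ → k, ∑ i, l i * dv z v (f i) = 0) → l = 0

namespace CI

variable {k σ : Type} [Field k] [IsAlgClosed k] [CharZero k] [Fintype σ] {c : ℕ} {ι : Type}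
  (D : CI k σ c ι)

/-- the ideal -/
def I : Ideal (MvPolynomial σ k) := Ideal.span (Set.range D.f)

/-- the smooth part -/
def Z0 : Set (σ → k) := {z | (∀ i, eval z (D.f i) = 0) ∧ ∃ j, eval z (D.p j) ≠ 0}

theorem f_mem (i : Fin c) : D.f i ∈ D.I := Ideal.subset_span ⟨i, rfl⟩

theorem hom_I : Hom D.I := hom_span (by
  rintro _ ⟨i, rfl⟩
  obtain ⟨d, -, h⟩ := D.f_hom i
  exact ⟨d, h⟩)

theorem I_le_mm : D.I ≤ mm k σ := Ideal.span_le.2 (by
  rintro _ ⟨i, rfl⟩
  obtain ⟨d, hd, h⟩ := D.f_hom i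
  exact mem_mm_of_hom h hd)

theorem eval_of_mem {z : σ → k} (hz : ∀ i, eval z (D.f i) = 0) {r : MvPolynomial σ k}
    (hr : r ∈ D.I) : eval z r = 0 := by
  have : D.I ≤ nn z := Ideal.span_le.2 (by rintro _ ⟨i, rfl⟩; exact hz i)
  exact this hr

theorem span_hom {a : MvPolynomial σ k} (ha : a ∈ Submodule.span k (Set.range D.p)) :
    a.IsHomogeneous D.e := by
  have : Submodule.span k (Set.range D.p) ≤ homogeneousSubmodule σ k D.e :=
    Submodule.span_le.2 (by rintro _ ⟨j, rfl⟩; exact D.p_hom j)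
  exact this ha

theorem span_mem {J : Ideal (MvPolynomial σ k)} (hJ : ∀ j, D.p j ∈ J) {a : MvPolynomial σ k}
    (ha : a ∈ Submodule.span k (Set.range D.p)) : a ∈ J := by
  have : Submodule.span k (Set.range D.p) ≤ J.restrictScalars k :=
    Submodule.span_le.2 (by rintro _ ⟨j, rfl⟩; exact hJ j)
  exact this ha

/-- depth two along `V(p)` -/
theorem exists_reg : ∃ a ∈ Submodule.span k (Set.range D.p),
    ∃ b ∈ Submodule.span k (Set.range D.p), Nz D.I a ∧ Nz (D.I ⊔ Ideal.span {a}) b := by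
  obtain ⟨L, hlen, hL, -, hI⟩ := exists_WR_span D.f (fun i => D.I_le_mm (D.f_mem i)) D.h1
  have hI' : Ideal.ofList L = D.I := hI
  have hVm : ∀ r ∈ Submodule.span k (Set.range D.p), r ∈ mm k σ := fun r hr =>
    mem_mm_of_hom (D.span_hom hr) D.e_pos
  obtain ⟨a, ha, hLa⟩ := hL.step _ hVm fun Q hQ h1 h2 => by
    refine le_trans ?_ (D.h2 Q hQ (fun i => h1 (hI' ▸ D.f_mem i))
      fun j => h2 _ (Submodule.subset_span ⟨j, rfl⟩))
    rw [hlen]
    exact_mod_cast (by omega : c + 1 ≤ c + 2)
  have hIa : Ideal.ofList (L ++ [a]) = D.I ⊔ Ideal.span {a} := by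
    rw [Ideal.ofList_append, hI', Ideal.ofList_singleton]
  obtain ⟨b, hb, hLb⟩ := hLa.step _ hVm fun Q hQ h1 h2 => by
    refine le_trans ?_ (D.h2 Q hQ (fun i => h1 (hIa ▸ Ideal.mem_sup_left (D.f_mem i)))
      fun j => h2 _ (Submodule.subset_span ⟨j, rfl⟩))
    rw [List.length_append, hlen]
    exact le_of_eq (by simp [add_assoc])
  refine ⟨a, ha, b, hb, fun r hr => ?_, fun r hr => ?_⟩
  · rw [← hI'] at hr ⊢
    exact hLa.nz (hI' ▸ D.hom_I) hr
  · rw [← hIa] at hr ⊢
    refine hLb.nz ?_ hr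
    rw [hIa]
    exact D.hom_I.sup (hom_span (by rintro _ rfl; exact ⟨_, D.span_hom ha⟩))

theorem locP_prime {z : σ → k} (hz : z ∈ D.Z0) : (locP D.I z).IsPrime :=
  locP_isPrime D.f z hz.1 (D.jac z hz.1 hz.2)

theorem locP_le {z : σ → k} (hz : ∀ i, eval z (D.f i) = 0) : locP D.I z ≤ nn z := by
  intro r hr
  obtain ⟨s, hs, h⟩ := mem_locP.1 hr
  have := D.eval_of_mem hz h
  rw [map_mul] at this
  exact (mul_eq_zero.1 this).resolve_left hs

/-- **the ideal is the ideal of `Z0`** -/
theorem mem_of_vanish {r : MvPolynomial σ k} (hr : ∀ z ∈ D.Z0, eval z r = 0) : r ∈ D.I := by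
  obtain ⟨a, ha, -, -, hna, -⟩ := D.exists_reg
  obtain ⟨n, hn⟩ := pow_mem_of_vanish (J := D.I.colon {r}) (r := a) fun z hz => by
    have hz1 : ∀ i, eval z (D.f i) = 0 := fun i => hz _ (by
      rw [Submodule.mem_colon_singleton]
      exact D.I.mul_mem_right _ (D.f_mem i))
    by_contra hza
    have hz2 : ∃ j, eval z (D.p j) ≠ 0 := by
      by_contra hcon
      push Not at hcon
      exact hza (D.span_mem (J := nn z) hcon ha)
    obtain ⟨j, hj⟩ := hz2
    have hp := D.locP_prime ⟨hz1, j, hj⟩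
    obtain ⟨m, hm⟩ := pow_mem_of_vanish (J := D.I) (r := r * D.p j) fun y hy => by
      rw [map_mul]
      by_cases h : eval y (D.p j) = 0
      · rw [h, mul_zero]
      · rw [hr y ⟨fun i => hy _ (D.f_mem i), j, h⟩, zero_mul]
    have h1 := hp.mem_of_pow_mem m (le_locP _ _ hm)
    rcases hp.mem_or_mem h1 with h2 | h2
    · obtain ⟨s, hs, h3⟩ := mem_locP.1 h2
      exact hs (hz s (by rwa [Submodule.mem_colon_singleton]))
    · exact hj (D.locP_le hz1 h2)
  rw [Submodule.mem_colon_singleton] at hn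
  exact hna.pow n r hn

theorem mem_iff {r : MvPolynomial σ k} : r ∈ D.I ↔ ∀ z ∈ D.Z0, eval z r = 0 :=
  ⟨fun h _ hz => D.eval_of_mem hz.1 h, D.mem_of_vanish⟩

theorem Z0_nonempty : D.Z0.Nonempty := by
  by_contra h
  rw [Set.not_nonempty_iff_eq_empty] at h
  have h1 : (1 : MvPolynomial σ k) ∈ D.I := D.mem_of_vanish fun z hz => by simp [h] at hz
  exact mm_max.ne_top ((Ideal.eq_top_iff_one _).2 (D.I_le_mm h1))

/-- **Serre's condition `S2`, for functions** -/
theorem s2 (h : (σ → k) → k)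
    (H : ∀ j, ∃ (N : ℕ) (Q : MvPolynomial σ k), ∀ z ∈ D.Z0, eval z (D.p j) ^ N * h z = eval z Q) :
    ∃ Q : MvPolynomial σ k, ∀ z ∈ D.Z0, h z = eval z Q := by
  obtain ⟨a, ha, b, hb, hna, hnb⟩ := D.exists_reg
  let J : Ideal (MvPolynomial σ k) :=
    { carrier := {r | ∃ Q : MvPolynomial σ k, ∀ z ∈ D.Z0, eval z r * h z = eval z Q}
      add_mem' := by
        rintro x y ⟨Q, hQ⟩ ⟨Q', hQ'⟩
        exact ⟨Q + Q', fun z hz => by rw [map_add, map_add, add_mul, hQ z hz, hQ' z hz]⟩
      zero_mem' := ⟨0, by simp⟩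
      smul_mem' := by
        rintro r x ⟨Q, hQ⟩
        exact ⟨r * Q, fun z hz => by rw [smul_eq_mul, map_mul, map_mul, mul_assoc, hQ z hz]⟩ }
  have hJ : ∀ j, D.p j ∈ J.radical := fun j => by
    obtain ⟨N, Q, hQ⟩ := H j
    exact ⟨N, Q, fun z hz => by rw [map_pow, hQ z hz]⟩
  obtain ⟨n, Q1, hQ1⟩ := D.span_mem hJ ha
  obtain ⟨m, Q2, hQ2⟩ := D.span_mem hJ hb
  have h1 : b ^ m * Q1 - a ^ n * Q2 ∈ D.I := D.mem_of_vanish fun z hz => by
    rw [map_sub, map_mul, map_mul, ← hQ1 z hz, ← hQ2 z hz]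
    ring
  obtain ⟨Q, hQ⟩ := mem_sup_span.1 (((hna.sup_pow hnb n).pow m) Q1 (mem_sup_span.2 ⟨Q2, h1⟩))
  refine ⟨Q, fun z hz => ?_⟩
  obtain ⟨j, hj⟩ := hz.2
  obtain ⟨N, Q3, hQ3⟩ := H j
  have h2 : a ^ n * (Q3 - D.p j ^ N * Q) ∈ D.I := D.mem_of_vanish fun y hy => by
    have h3 := D.eval_of_mem hy.1 hQ
    rw [map_sub, map_mul, ← hQ1 y hy] at h3
    rw [map_mul, map_sub, map_mul, map_pow (eval y) (D.p j), ← hQ3 y hy]
    linear_combination (eval y (D.p j)) ^ N * h3
  have h3 := D.eval_of_mem hz.1 (hna.pow n _ h2)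
  rw [map_sub, map_mul, map_pow, ← hQ3 z hz, ← mul_sub] at h3
  exact sub_eq_zero.1 ((mul_eq_zero.1 h3).resolve_left (pow_ne_zero _ hj))

theorem smul_mem {z : σ → k} (hz : z ∈ D.Z0) {t : k} (ht : t ≠ 0) : t • z ∈ D.Z0 := by
  obtain ⟨h1, j, hj⟩ := hz
  refine ⟨fun i => ?_, j, ?_⟩
  · obtain ⟨d, -, hd⟩ := D.f_hom i
    rw [eval_smul_hom hd, h1 i, mul_zero]
  · rw [eval_smul_hom (D.p_hom j)]
    exact mul_ne_zero (pow_ne_zero _ ht) hj

/-- a polynomial with values in `{0, 1}` on `Z0` is constant -/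
theorem const_of_idem {Q : MvPolynomial σ k} (hQ : ∀ z ∈ D.Z0, eval z Q = 0 ∨ eval z Q = 1)
    {z : σ → k} (hz : z ∈ D.Z0) : eval z Q = eval 0 Q := by
  set q : Polynomial k := aeval (fun s => Polynomial.C (z s) * Polynomial.X) Q with hq
  have hev : ∀ t : k, q.eval t = eval (t • z) Q := by
    intro t
    have h : (Polynomial.aeval t : Polynomial k →ₐ[k] k).comp
        (aeval fun s => Polynomial.C (z s) * Polynomial.X) = aeval (t • z) := by
      apply MvPolynomial.algHom_ext
      intro s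
      rw [AlgHom.comp_apply, aeval_X, aeval_X, map_mul, Polynomial.aeval_C, Polynomial.aeval_X,
        mul_comm]
      rfl
    have h2 := DFunLike.congr_fun h Q
    rw [← coe_aeval_eq_eval, ← Polynomial.coe_aeval_eq_eval]
    exact h2
  have h1 : q * (q - 1) = 0 := by
    apply Polynomial.eq_zero_of_infinite_isRoot
    refine Set.Infinite.mono (s := {0}ᶜ) ?_ (Set.finite_singleton (0 : k)).infinite_compl
    intro t ht
    have := hQ _ (D.smul_mem hz ht)
    rw [Set.mem_ofPred_eq, Polynomial.IsRoot, Polynomial.eval_mul, Polynomial.eval_sub, hev,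
      Polynomial.eval_one]
    rcases this with h | h <;> simp [h]
  have h2 : q.eval 1 = q.eval 0 := by
    rcases mul_eq_zero.1 h1 with h | h
    · simp [h]
    · simp [sub_eq_zero.1 h]
  rwa [hev, hev, one_smul, zero_smul] at h2

/-- **the ideal is prime** -/
theorem isPrime : D.I.IsPrime := by
  classical
  obtain ⟨z0, hz0⟩ := D.Z0_nonempty
  set P := locP D.I z0 with hP
  have hPp : P.IsPrime := D.locP_prime hz0
  have hIP : D.I ≤ P := le_locP _ _
  -- on `V(P)` the local ideal is `P`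
  have h1 : ∀ z ∈ D.Z0, P ≤ nn z → P ≤ locP D.I z := by
    intro z hz hle r hr
    obtain ⟨s, hs, h⟩ := mem_locP.1 hr
    rcases (D.locP_prime hz).mem_or_mem (le_locP _ _ h) with h2 | h2
    · exfalso
      obtain ⟨s', hs', h3⟩ := mem_locP.1 h2
      rcases hPp.mem_or_mem (hIP h3) with h4 | h4
      · exact hs' (hle h4)
      · exact hs (D.locP_le hz0.1 h4)
    · exact h2
  set Q := D.I.colon (P : Set (MvPolynomial σ k)) with hQ
  have h2 : ∀ z ∈ D.Z0, P ≤ nn z → ∃ s ∈ Q, eval z s ≠ 0 := by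
    intro z hz hle
    obtain ⟨T, hT⟩ := IsNoetherian.noetherian P
    have h3 : ∀ r ∈ T, ∃ s, eval z s ≠ 0 ∧ s * r ∈ D.I := fun r hr =>
      mem_locP.1 (h1 z hz hle (hT ▸ Submodule.subset_span hr))
    choose! s hs1 hs2 using h3
    refine ⟨∏ r ∈ T, s r, ?_, ?_⟩
    · rw [hQ, Submodule.mem_colon]
      intro r hr
      have h4 : P ≤ D.I.colon {∏ r ∈ T, s r} := by
        rw [← hT, Submodule.span_le]
        intro r hr
        rw [SetLike.mem_coe, Submodule.mem_colon_singleton, smul_eq_mul,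
          ← Finset.mul_prod_erase T s hr, ← mul_assoc, mul_comm r]
        exact D.I.mul_mem_right _ (hs2 r hr)
      have h5 := h4 hr
      rwa [Submodule.mem_colon_singleton, smul_eq_mul, mul_comm] at h5
    · rw [map_prod]
      exact Finset.prod_ne_zero_iff.2 hs1
  have h3 : ∀ z ∈ D.Z0, ¬ P ≤ nn z → ∀ s ∈ Q, eval z s = 0 := by
    intro z hz hle s hs
    obtain ⟨r, hr, hr'⟩ := SetLike.not_le_iff_exists.1 hle
    have h4 := D.eval_of_mem hz.1 ((Submodule.mem_colon.1 hs) r hr)
    rw [smul_eq_mul, map_mul] at h4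
    exact (mul_eq_zero.1 h4).resolve_right hr'
  obtain ⟨F, hF⟩ := D.s2 (fun z => if P ≤ nn z then 1 else 0) fun j => by
    obtain ⟨N, hN⟩ := pow_mem_of_vanish (J := P ⊔ Q) (r := D.p j) fun z hz => by
      by_contra hj
      have hz' : z ∈ D.Z0 := ⟨fun i => hz _ (Ideal.mem_sup_left (hIP (D.f_mem i))), j, hj⟩
      obtain ⟨s, hs, hs'⟩ := h2 z hz' fun r hr => hz r (Ideal.mem_sup_left hr)
      exact hs' (hz s (Ideal.mem_sup_right hs))
    obtain ⟨u, hu, u', hu', he⟩ := Submodule.mem_sup.1 hN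
    refine ⟨N, u', fun z hz => ?_⟩
    split_ifs with hle
    · rw [mul_one, ← map_pow, ← he, map_add, mem_nn.1 (hle hu), zero_add]
    · rw [mul_zero, h3 z hz hle u' hu']
  have h4 : ∀ z ∈ D.Z0, eval z F = 0 ∨ eval z F = 1 := fun z hz => by
    rw [← hF z hz]
    split_ifs <;> simp
  have h5 : ∀ z ∈ D.Z0, P ≤ nn z := by
    intro z hz
    by_contra hle
    have h6 := hF z hz
    have h7 := hF z0 hz0
    rw [if_neg hle, D.const_of_idem h4 hz] at h6
    rw [if_pos (D.locP_le hz0.1), D.const_of_idem h4 hz0, ← h6] at h7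
    exact one_ne_zero h7
  have h6 : D.I = P := le_antisymm hIP fun r hr => D.mem_of_vanish fun z hz => h5 z hz hr
  rw [h6]
  exact hPp

end CI

end

end Crest.Agent.X262.Fano21
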