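import Crest.Agent.X262.Fano21.Seq
import Crest.Agent.X262.Rig38.Tri

/-!
# Row 262, FANO-ALG (helper21), part 7: the outputs

* `rsqStmt : Rig38.RSqStmt`;
* `chart_prime`, `chart_isDomain`, `chart_dim` : the standard chart of the variety of lines of a
  smooth cubic fourfold is an integral variety of dimension at most four;
* `chart_gen` : a generic point.
-/

set_option autoImplicit false
set_option linter.unusedSectionVars false

open MvPolynomial

namespace Crest.Agent.X262.Fano21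

open Crest.AlgGeometry
open Rig38 (ten tri pv qv pX qX OnL PP II RSq RSqStmt)

noncomputable section

variable {G : MvPolynomial (Fin 6) ℂ}

theorem ten_eq (G : MvPolynomial (Fin 6) ℂ) (i j l : Fin 6) : ten G i j l = cf G i j l := by
  rw [ten, cf, constantCoeff_eq, Rat.smul_def]
  norm_num

theorem tri_eq {A : Type} [CommRing A] [Algebra ℂ A] (G : MvPolynomial (Fin 6) ℂ)
    (u v w : Fin 6 → A) : tri (ten G) u v w = pol G u v w := by
  simp only [tri, pol_apply, ten_eq, mul_assoc]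

theorem onL_iff_eqs {A : Type} [CommRing A] [Algebra ℂ A] (G : MvPolynomial (Fin 6) ℂ)
    (u v : Fin 6 → A) : OnL (ten G) u v ↔ ∀ i, eqs G u v i = 0 := by
  constructor
  · intro h i
    fin_cases i
    exacts [(tri_eq G _ _ _).symm.trans h.h0, (tri_eq G _ _ _).symm.trans h.h1,
      (tri_eq G _ _ _).symm.trans h.h2, (tri_eq G _ _ _).symm.trans h.h3]
  · intro h
    exact ⟨(tri_eq G _ _ _).trans (h 0), (tri_eq G _ _ _).trans (h 1),
      (tri_eq G _ _ _).trans (h 2), (tri_eq G _ _ _).trans (h 3)⟩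

theorem card6 : Fintype.card (Fin 6) = 6 := Fintype.card_fin 6

section rsq

/-- the two ways to index the variables -/
def ev : Fin 6 ⊕ Fin 6 ≃ Fin 2 × Fin 6 where
  toFun := Sum.elim (fun i => (0, i)) (fun i => (1, i))
  invFun := fun m => if m.1 = 0 then Sum.inl m.2 else Sum.inr m.2
  left_inv := by rintro (i | i) <;> simp
  right_inv := by
    rintro ⟨a, i⟩
    fin_cases a <;> simp

/-- the two polynomial rings -/
def eP : MvPolynomial (Fin 6 ⊕ Fin 6) ℂ ≃ₐ[ℂ] PP := renameEquiv ℂ ev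

theorem eP_xx : (eP.toAlgHom ∘ xx ℂ (Fin 6)) = Rig38.xx := by
  funext i
  simp [eP, xx, Rig38.xx, ev]

theorem eP_yy : (eP.toAlgHom ∘ yy ℂ (Fin 6)) = Rig38.yy := by
  funext i
  simp [eP, yy, Rig38.yy, ev]

theorem eP_eqs (G : MvPolynomial (Fin 6) ℂ) (i : Fin 4) :
    eP (eqs G (xx ℂ _) (yy ℂ _) i) = eqs G Rig38.xx Rig38.yy i := by
  rw [← eP_xx, ← eP_yy, ← map_eqs]
  rfl

theorem eP_plk (i j : Fin 6) : eP (plk ℂ (i, j)) = Rig38.plk Rig38.xx Rig38.yy i j := by
  rw [← eP_xx, ← eP_yy]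
  simp [plk, Rig38.plk]

theorem eP_mem (J : Ideal (MvPolynomial (Fin 6 ⊕ Fin 6) ℂ))
    (r : MvPolynomial (Fin 6 ⊕ Fin 6) ℂ) : eP r ∈ J.map eP ↔ r ∈ J :=
  Ideal.apply_mem_of_equiv_iff (f := eP.toRingEquiv)

theorem Nz.eP {J : Ideal (MvPolynomial (Fin 6 ⊕ Fin 6) ℂ)} {a : MvPolynomial (Fin 6 ⊕ Fin 6) ℂ}
    (h : Nz J a) : Nz (J.map eP) (eP a) := by
  intro r hr
  obtain ⟨r, rfl⟩ := Fano21.eP.surjective r
  rw [← map_mul, eP_mem] at hr
  exact (eP_mem _ _).2 (h r hr)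

theorem II_eq (G : MvPolynomial (Fin 6) ℂ) :
    II (ten G) = (Ideal.span (Set.range (eqs G (xx ℂ _) (yy ℂ _)))).map eP := by
  rw [Ideal.map_span, ← Set.range_comp, II]
  congr 1
  have : ⇑eP ∘ eqs G (xx ℂ _) (yy ℂ _) = eqs G Rig38.xx Rig38.yy := funext (eP_eqs G)
  rw [this]
  ext x
  simp only [Set.mem_insert_iff, Set.mem_singleton_iff, Set.mem_range, tri_eq]
  constructor
  · rintro (rfl | rfl | rfl | rfl)
    exacts [⟨0, rfl⟩, ⟨1, rfl⟩, ⟨2, rfl⟩, ⟨3, rfl⟩]
  · rintro ⟨i, rfl⟩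
    fin_cases i
    exacts [Or.inl rfl, Or.inr (Or.inl rfl), Or.inr (Or.inr (Or.inl rfl)),
      Or.inr (Or.inr (Or.inr rfl))]

theorem SmC.II_prime (h : SmC G) : (II (ten G)).IsPrime := by
  have := h.frames_prime card6
  rw [II_eq]
  exact Ideal.map_isPrime_of_equiv eP.toRingEquiv

theorem SmC.rsq (h : SmC G) : RSq (ten G) where
  ne := by
    rw [tri_eq]
    have := (map_ne_zero_iff eP eP.injective).2 (h.eqs0_ne card6)
    rwa [eP_eqs] at this
  n1 := by
    have := (h.nz1 card6).eP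
    rw [Ideal.map_span, Set.image_singleton, eP_eqs, eP_eqs] at this
    simp only [tri_eq]
    exact this
  n2 := by
    have := (h.nz2 card6).eP
    rw [Ideal.map_span, Set.image_pair, eP_eqs, eP_eqs, eP_eqs] at this
    simp only [tri_eq]
    exact this
  nz := by
    have := ((h.frames card6).nz (h.plk_not_mem card6 (i := 0) (j := 1) (by decide))).eP
    rw [eP_plk] at this
    rw [II_eq]
    exact this
  s2 r N hr := by
    obtain ⟨r, rfl⟩ := eP.surjective r
    have e : II (ten G) ⊔ Ideal.span {Rig38.plk Rig38.xx Rig38.yy 0 1} =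
        ((h.frames card6).I ⊔ Ideal.span {plk ℂ (0, 1)}).map eP := by
      rw [Ideal.map_sup, Ideal.map_span, Set.image_singleton, eP_plk, II_eq]
      rfl
    rw [e] at hr ⊢
    rw [eP_mem]
    refine (h.frames card6).sat_sup two_pos (plk_hom _)
      (h.plk_not_mem card6 (by decide)) fun ij => ⟨N, ?_⟩
    have := hr ij.1 ij.2
    rwa [← eP_plk, ← map_pow, ← map_mul, eP_mem] at this

/-- **the input of RIG** -/
theorem rsqStmt : RSqStmt := fun _ h1 h2 => SmC.rsq ⟨h1, h2⟩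

end rsq

section chart

theorem chart_iff (hG : G.IsHomogeneous 3) {A : Type} [CommRing A] [Algebra ℂ A] (a : Fin 8 → A) :
    (∀ r ∈ fanoChartIdeal G, aeval a r = 0) ↔ ∀ i, eqs G (pv a) (qv a) i = 0 := by
  rw [← Rig38.onL_iff hG, onL_iff_eqs]

theorem algHom_pv {A B : Type} [CommRing A] [Algebra ℂ A] [CommRing B] [Algebra ℂ B]
    (f : A →ₐ[ℂ] B) (a : Fin 8 → A) : f ∘ pv a = pv (f ∘ a) :=
  funext fun l => Rig38.pv_map f.toRingHom a l

theorem algHom_qv {A B : Type} [CommRing A] [Algebra ℂ A] [CommRing B] [Algebra ℂ B]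
    (f : A →ₐ[ℂ] B) (a : Fin 8 → A) : f ∘ qv a = qv (f ∘ a) :=
  funext fun l => Rig38.qv_map f.toRingHom a l

theorem aeval_mk (J : Ideal (MvPolynomial (Fin 8) ℂ)) (r : MvPolynomial (Fin 8) ℂ) :
    aeval (Ideal.Quotient.mkₐ ℂ J ∘ X) r = Ideal.Quotient.mk J r := by
  have : aeval (Ideal.Quotient.mkₐ ℂ J ∘ X) = Ideal.Quotient.mkₐ ℂ J := by
    apply MvPolynomial.algHom_ext
    intro s
    simp
  rw [this]
  rfl

theorem eqs_mem_chart (hG : G.IsHomogeneous 3) (i : Fin 4) :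
    eqs G pX qX i ∈ fanoChartIdeal G := by
  have := (chart_iff hG (Ideal.Quotient.mkₐ ℂ (fanoChartIdeal G) ∘ X)).1
    (fun r hr => by rw [aeval_mk, Ideal.Quotient.eq_zero_iff_mem]; exact hr) i
  rwa [← algHom_pv, ← algHom_qv, ← map_eqs, Ideal.Quotient.mkₐ_eq_mk,
    Ideal.Quotient.eq_zero_iff_mem] at this

/-- the equations of the chart -/
theorem chart_eq (hG : G.IsHomogeneous 3) :
    fanoChartIdeal G = Ideal.span (Set.range (eqs G pX qX)) := by
  refine le_antisymm (fun r hr => ?_) (Ideal.span_le.2 ?_)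
  · have := (chart_iff hG (Ideal.Quotient.mkₐ ℂ
      (Ideal.span (Set.range (eqs G pX qX))) ∘ X)).2 (fun i => by
        rw [← algHom_pv, ← algHom_qv, ← map_eqs, Ideal.Quotient.mkₐ_eq_mk,
          Ideal.Quotient.eq_zero_iff_mem]
        exact Ideal.subset_span ⟨i, rfl⟩) r hr
    rwa [aeval_mk, Ideal.Quotient.eq_zero_iff_mem] at this
  · rintro _ ⟨i, rfl⟩
    exact eqs_mem_chart hG i

theorem eqs_comb {K : Type*} [CommRing K] [Algebra ℂ K] {x y : Fin 6 → K}
    (h : ∀ i, eqs G x y i = 0) (a b c d : K) (i : Fin 4) :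
    eqs G (a • x + b • y) (c • x + d • y) i = 0 := by
  have h0 : pol G x x x = 0 := h 0
  have h1 : pol G x x y = 0 := h 1
  have h2 : pol G x y y = 0 := h 2
  have h3 : pol G y y y = 0 := h 3
  have key : ∀ a b c d e f : K, pol G (a • x + b • y) (c • x + d • y) (e • x + f • y) = 0 := by
    intro a b c d e f
    simp only [map_add, map_smul, LinearMap.add_apply, LinearMap.smul_apply, smul_eq_mul]
    rw [pol_23 G x y x, pol_12 G y x x, pol_23 G x y x, pol_12 G y x y, pol_13 G y y x, h0, h1, h2,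
      h3]
    ring
  fin_cases i <;> exact key ..

/-- the numerators of the normalised frame -/
def num {K : Type*} [CommRing K] (x y : Fin 6 → K) : Fin 8 → K :=
  ![y 1 * x 2 - x 1 * y 2, y 1 * x 3 - x 1 * y 3, y 1 * x 4 - x 1 * y 4, y 1 * x 5 - x 1 * y 5,
    x 0 * y 2 - y 0 * x 2, x 0 * y 3 - y 0 * x 3, x 0 * y 4 - y 0 * x 4, x 0 * y 5 - y 0 * x 5]

theorem map_num {K K' : Type*} [CommRing K] [CommRing K'] [Algebra ℂ K] [Algebra ℂ K']
    (f : K →ₐ[ℂ] K') (x y : Fin 6 → K) (s : Fin 8) : f (num x y s) = num (f ∘ x) (f ∘ y) s := by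
  fin_cases s <;> simp [num]

theorem num_pq {K : Type} [CommRing K] (a : Fin 8 → K) : num (pv a) (qv a) = a := by
  funext s
  fin_cases s <;> simp [num, pv, qv]

/-- the normalised frame -/
def nrm {K : Type} [Field K] (x y : Fin 6 → K) (s : Fin 8) : K :=
  num x y s / (x 0 * y 1 - x 1 * y 0)

theorem pv_nrm {K : Type} [Field K] {x y : Fin 6 → K} (h : x 0 * y 1 - x 1 * y 0 ≠ 0) :
    pv (nrm x y) = (y 1 / (x 0 * y 1 - x 1 * y 0)) • x + (-x 1 / (x 0 * y 1 - x 1 * y 0)) • y := by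
  have h1 := mul_inv_cancel₀ h
  funext l
  fin_cases l <;> simp only [pv, nrm, num, div_eq_mul_inv] <;>
    generalize (x 0 * y 1 - x 1 * y 0)⁻¹ = e at h1 <;> simp <;>
    first | ring1 | linear_combination -h1

theorem qv_nrm {K : Type} [Field K] {x y : Fin 6 → K} (h : x 0 * y 1 - x 1 * y 0 ≠ 0) :
    qv (nrm x y) = (-y 0 / (x 0 * y 1 - x 1 * y 0)) • x + (x 0 / (x 0 * y 1 - x 1 * y 0)) • y := by
  have h1 := mul_inv_cancel₀ h
  funext l
  fin_cases l <;> simp only [qv, nrm, num, div_eq_mul_inv] <;>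
    generalize (x 0 * y 1 - x 1 * y 0)⁻¹ = e at h1 <;> simp <;>
    first | ring1 | linear_combination -h1

/-- restriction of a function on the space of frames to the chart -/
def res : MvPolynomial (Fin 6 ⊕ Fin 6) ℂ →ₐ[ℂ] MvPolynomial (Fin 8) ℂ :=
  aeval (Sum.elim pX qX)

theorem res_plk : res (plk ℂ (0, 1)) = 1 := by
  rw [res, aeval_plk]
  simp

theorem res_eqs (G : MvPolynomial (Fin 6) ℂ) (i : Fin 4) :
    res (eqs G (xx ℂ _) (yy ℂ _) i) = eqs G pX qX i := by
  rw [res, aeval_eqs]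
  rfl

theorem exists_res {K : Type} [Field K] [Algebra ℂ K] (z : Fin 6 ⊕ Fin 6 → K)
    (hz : aeval z (plk ℂ ((0 : Fin 6), 1)) ≠ 0) (r : MvPolynomial (Fin 8) ℂ) :
    ∃ (N : ℕ) (R : MvPolynomial (Fin 6 ⊕ Fin 6) ℂ), res R = r ∧
      aeval z R = aeval z (plk ℂ ((0 : Fin 6), 1)) ^ N *
        aeval (nrm (z ∘ Sum.inl) (z ∘ Sum.inr)) r := by
  induction r using MvPolynomial.induction_on with
  | C a => exact ⟨0, C a, by simp [res], by simp⟩
  | add p q hp hq =>
    obtain ⟨N, R, h1, h2⟩ := hp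
    obtain ⟨N', R', h1', h2'⟩ := hq
    refine ⟨N + N', plk ℂ (0, 1) ^ N' * R + plk ℂ (0, 1) ^ N * R', ?_, ?_⟩
    · simp only [map_add, map_mul, map_pow, res_plk, h1, h1', one_pow, one_mul]
    · simp only [map_add, map_mul, map_pow, h2, h2']
      ring
  | mul_X p s hp =>
    obtain ⟨N, R, h1, h2⟩ := hp
    refine ⟨N + 1, R * num (xx ℂ _) (yy ℂ _) s, ?_, ?_⟩
    · rw [map_mul, h1, map_num, res, aeval_xx, aeval_yy]
      exact congrArg _ (congrFun (num_pq X) s)
    · rw [map_mul, h2, map_num, aeval_xx, aeval_yy, map_mul, aeval_X, nrm]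
      rw [aeval_plk] at hz ⊢
      simp only [Function.comp_apply]
      field_simp
      ring

/-- a generic point of the chart -/
theorem SmC.chart_gen (h : SmC G) {K : Type} [Field K] [Algebra ℂ K] (z : Fin 6 ⊕ Fin 6 → K)
    (hz : ∀ r, aeval z r = 0 ↔ r ∈ (h.frames card6).I) (r : MvPolynomial (Fin 8) ℂ) :
    aeval (nrm (z ∘ Sum.inl) (z ∘ Sum.inr)) r = 0 ↔ r ∈ fanoChartIdeal G := by
  have hp : aeval z (plk ℂ ((0 : Fin 6), 1)) ≠ 0 := fun h0 =>
    h.plk_not_mem card6 (by decide) ((hz _).1 h0)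
  constructor
  · intro hr
    obtain ⟨N, R, rfl, h2⟩ := exists_res z hp r
    rw [hr, mul_zero, hz] at h2
    have h3 : (h.frames card6).I ≤ (fanoChartIdeal G).comap res := Ideal.span_le.2 (by
      rintro _ ⟨i, rfl⟩
      change res (eqs G (xx ℂ _) (yy ℂ _) i) ∈ fanoChartIdeal G
      rw [res_eqs]
      exact eqs_mem_chart h.hom i)
    exact h3 h2
  · rw [aeval_plk] at hp
    refine (chart_iff h.hom _).2 (fun i => ?_) r
    rw [pv_nrm (x := z ∘ Sum.inl) (y := z ∘ Sum.inr) hp, qv_nrm (x := z ∘ Sum.inl)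
      (y := z ∘ Sum.inr) hp]
    refine eqs_comb (fun i => ?_) _ _ _ _ i
    rw [← aeval_eqs, hz]
    exact (h.frames card6).f_mem i

theorem SmC.chart_prime (h : SmC G) : (fanoChartIdeal G).IsPrime := by
  have := (h.frames card6).isPrime
  obtain ⟨K, _, _, z, hz⟩ := exists_gen (h.frames card6).I
  have e : fanoChartIdeal G = RingHom.ker (aeval (nrm (z ∘ Sum.inl) (z ∘ Sum.inr)) :
      MvPolynomial (Fin 8) ℂ →ₐ[ℂ] K) := by
    ext r
    rw [RingHom.mem_ker, h.chart_gen z hz]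
  rw [e]
  exact RingHom.ker_isPrime _

/-- tangent vectors of the chart -/
def emb (K : Type) [Field K] : (Fin 8 → K) →ₗ[K] (Fin 6 ⊕ Fin 6 → K) where
  toFun v := Sum.elim ![0, 0, v 0, v 1, v 2, v 3] ![0, 0, v 4, v 5, v 6, v 7]
  map_add' v w := by
    funext s
    rcases s with i | i <;> fin_cases i <;> simp
  map_smul' c v := by
    funext s
    rcases s with i | i <;> fin_cases i <;> simp

theorem tan_comb {K : Type*} [CommRing K] [Algebra ℂ K] {x y : Fin 6 → K}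
    (h : ∀ i, eqs G x y i = 0) (a b c d : K) :
    tan G x y (Sum.elim (a • x + b • y) (c • x + d • y)) = 0 := by
  have h0 : pol G x x x = 0 := h 0
  have h1 : pol G x x y = 0 := h 1
  have h2 : pol G x y y = 0 := h 2
  have h3 : pol G y y y = 0 := h 3
  rw [tan_apply]
  simp only [Sum.elim_comp_inl, Sum.elim_comp_inr, map_add, map_smul, smul_eq_mul,
    pol_23 G x y x, pol_13 G y y x, h0, h1, h2, h3]
  funext i
  fin_cases i <;> simp

theorem SmC.tan_emb_surj (h : SmC G) {K : Type} [Field K] [Algebra ℂ K] {a : Fin 8 → K}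
    (ha : ∀ i, eqs G (pv a) (qv a) i = 0) :
    LinearMap.range ((tan G (pv a) (qv a)).comp (emb K)) = ⊤ := by
  rw [eq_top_iff, ← h.tan_surj (x := pv a) (y := qv a) ⟨0, 1, by simp⟩]
  rintro _ ⟨v, rfl⟩
  set u := v - Sum.elim (v (Sum.inl 0) • pv a + v (Sum.inl 1) • qv a)
    (v (Sum.inr 0) • pv a + v (Sum.inr 1) • qv a) with hu
  refine ⟨![u (Sum.inl 2), u (Sum.inl 3), u (Sum.inl 4), u (Sum.inl 5),
    u (Sum.inr 2), u (Sum.inr 3), u (Sum.inr 4), u (Sum.inr 5)], ?_⟩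
  have e : emb K ![u (Sum.inl 2), u (Sum.inl 3), u (Sum.inl 4), u (Sum.inl 5),
      u (Sum.inr 2), u (Sum.inr 3), u (Sum.inr 4), u (Sum.inr 5)] = u := by
    have a0 : u (Sum.inl 0) = 0 := by simp [hu]
    have a1 : u (Sum.inl 1) = 0 := by simp [hu]
    have a2 : u (Sum.inr 0) = 0 := by simp [hu]
    have a3 : u (Sum.inr 1) = 0 := by simp [hu]
    funext s
    rcases s with i | i <;> fin_cases i <;> simp [emb, a0, a1, a2, a3]
  rw [LinearMap.comp_apply, e, hu, map_sub, tan_comb ha, sub_zero]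

theorem SmC.chart_height (h : SmC G) (Q : Ideal (MvPolynomial (Fin 8) ℂ)) (hQ : Q.IsPrime)
    (hle : fanoChartIdeal G ≤ Q) : ((4 : ℕ) : ℕ∞) ≤ Q.height := by
  refine le_height' Q fun K _ _ z hz => ?_
  have ha : ∀ i, eqs G (pv z) (qv z) i = 0 :=
    (chart_iff h.hom _).1 fun r hr => (hz r).2 (hle hr)
  set T := (tan G (pv z) (qv z)).comp (emb K) with hT
  refine ⟨LinearMap.ker T, fun D => ?_, ?_⟩
  · funext i
    have h4 := deriv_eqs G D (Sum.elim (pv z) (qv z)) i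
    have e : D ∘ Sum.elim (pv z) (qv z) = emb K fun s => D (z s) := by
      funext s
      rcases s with i | i <;> fin_cases i <;> simp [emb, pv, qv]
    rw [Sum.elim_comp_inl, Sum.elim_comp_inr, ha, map_zero, e] at h4
    exact h4.symm
  · have h3 := LinearMap.finrank_range_add_finrank_ker T
    rw [h.tan_emb_surj ha, finrank_top, Module.finrank_fintype_fun_eq_card,
      Module.finrank_fintype_fun_eq_card, Fintype.card_fin] at h3
    rw [← h3, add_comm]

/-- **the chart is integral** -/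
theorem chart_isDomain (h1 : G.IsHomogeneous 3)
    (h2 : ∀ p : Fin 6 → ℂ, p ≠ 0 → eval p G = 0 → ∃ i, eval p (pderiv i G) ≠ 0) :
    IsDomain (fanoChart G) :=
  (Ideal.Quotient.isDomain_iff_prime _).2 (SmC.chart_prime ⟨h1, h2⟩)

/-- **the chart has dimension at most four** -/
theorem chart_dim (h1 : G.IsHomogeneous 3)
    (h2 : ∀ p : Fin 6 → ℂ, p ≠ 0 → eval p G = 0 → ∃ i, eval p (pderiv i G) ≠ 0) :
    ringKrullDim (fanoChart G) ≤ 4 :=
  dim_quot_le (c := 4) (n := 4) _ (by simp) (SmC.chart_height ⟨h1, h2⟩)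

end chart

end

end Crest.Agent.X262.Fano21
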