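import Crest.Agent.X262.Fano21.Nrm
import Crest.Agent.X262.Top.Defs
import Crest.Agent.X262.Brg.Lines

/-!
# Row 262, FANO-ALG (helper21), part 10: the line of `Top.Lines`

* `genPt` : the line is the generic point of the variety of lines;
* `nrmSec` : symmetric sections of multiples of the Pluecker class.
-/

set_option autoImplicit false

open MvPolynomial

namespace Crest.Agent.X262.Fano21

open Crest.AlgGeometry Crest.Agent.X277 Crest.Agent.X277.BD
open Crest.Agent.X262.Top (Lines SmCub)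
open Rig38 (GenPt pv qv)

variable {G : MvPolynomial (Fin 6) ℂ} {F L : Type} [Field F] [Algebra ℂ F] [Field L] [Algebra ℂ L]

theorem ker_of_trdeg {σ : Type} [Finite σ] {I : Ideal (MvPolynomial σ ℂ)}
    [IsDomain (MvPolynomial σ ℂ ⧸ I)] (hI : ringKrullDim (MvPolynomial σ ℂ ⧸ I) ≤ 4) {a : σ → L}
    (on : ∀ q ∈ I, aeval a q = 0)
    (h : Algebra.trdeg ℂ (IntermediateField.adjoin ℂ (Set.range a)) = 4) (r : MvPolynomial σ ℂ) :
    aeval a r = 0 ↔ r ∈ I := by
  have e := Brg.Lines.adjoin_lift I a on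
  generalize IntermediateField.adjoin ℂ (Set.range a) = K at h e
  subst e
  have hi := Brg.Lines.inj_of_trdeg (Ideal.Quotient.liftₐ I (aeval a) on) (d := 4) hI h
  exact ⟨fun hr => Ideal.Quotient.eq_zero_iff_mem.1 (hi (hr.trans (map_zero _).symm)), on r⟩

theorem genPt_of_trdeg (hG : SmCub G) {a : Fin 8 → L} (on : ∀ q ∈ fanoChartIdeal G, aeval a q = 0)
    (h : Algebra.trdeg ℂ (IntermediateField.adjoin ℂ (Set.range a)) = 4) : GenPt G a :=
  have := chart_isDomain hG.1 hG.2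
  ker_of_trdeg (chart_dim hG.1 hG.2) on h

theorem trdeg_lines (Λ : Lines G F L) :
    Algebra.trdeg ℂ (IntermediateField.adjoin ℂ (Set.range Λ.a)) = 4 := by
  have := Brg.Lines.isAlgebraic_of_fix Λ.inv fun x => (Λ.fix x).1
  exact (Brg.Lines.trdeg_of_isAlgebraic _).trans Λ.dim

/-- **the line is generic** -/
theorem genPt (Λ : Lines G F L) (hG : SmCub G) : GenPt G Λ.a :=
  genPt_of_trdeg hG Λ.on (trdeg_lines Λ)

/-- **normality** -/
theorem nrmSec (Λ : Lines G F L) (hG : SmCub G) (ha : GenPt G Λ.a) (k : ℕ) (s : L)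
    (h1 : Λ.τ s = s) (h2 : s ∈ (k • mxf ℂ Λ.plk).Sec) :
    s ∈ Rig38.Sec (Rig38.plk (pv Λ.a) (qv Λ.a)) k := by
  refine SmC.sec_of_val ⟨hG.1, hG.2⟩ ha ((Λ.fix s).1 h1) fun V hV => ?_
  obtain ⟨m, hm⟩ := exists_val_mxf (k := ℂ) (s := Λ.plk) ⟨(0, 1), by
    change Rig38.plk (pv Λ.a) (qv Λ.a) 0 1 ≠ 0
    rw [Rig38.plk01]
    exact one_ne_zero⟩ ⟨V, hV⟩
  have h3 := h2 ⟨V, hV⟩
  rw [val_nsmul, ← hm] at h3
  exact ⟨m.1, m.2, h3⟩

end Crest.Agent.X262.Fano21
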