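import Mathlib

/-!
# Row 262, FANO-ALG (helper21), part 4: the polar form of a cubic

`pol G : (ν → R) →ₗ (ν → R) →ₗ (ν → R) →ₗ R`, the symmetric trilinear form of a cubic form `G` with
coefficients in a `ℚ`-algebra `A`, evaluated in any `A`-algebra `R`.
-/

set_option autoImplicit false
set_option linter.unusedSectionVars false

open MvPolynomial

namespace Crest.Agent.X262.Fano21

noncomputable section

variable {A : Type*} [CommRing A] [Algebra ℚ A] {ν : Type*} [Fintype ν]

theorem pderiv_comm (i j : ν) (G : MvPolynomial ν A) :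
    pderiv i (pderiv j G) = pderiv j (pderiv i G) := by
  classical
  induction G using MvPolynomial.induction_on with
  | C a => simp
  | add p q hp hq => simp [hp, hq]
  | mul_X p s hp =>
    simp only [Derivation.leibniz, pderiv_X, smul_eq_mul, map_add, hp]
    have h1 : ∀ a b c : ν, pderiv a ((Pi.single b 1 : ν → MvPolynomial ν A) c) = 0 := by
      intro a b c
      by_cases h : c = b
      · subst h; simp
      · simp [Pi.single_eq_of_ne h]
    rw [h1, h1]
    ring

/-- the coefficients of the polar form -/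
def cf (G : MvPolynomial ν A) (i j l : ν) : A :=
  (6⁻¹ : ℚ) • coeff 0 (pderiv i (pderiv j (pderiv l G)))

theorem cf_12 (G : MvPolynomial ν A) (i j l : ν) : cf G i j l = cf G j i l := by
  rw [cf, cf, pderiv_comm i j]

theorem cf_23 (G : MvPolynomial ν A) (i j l : ν) : cf G i j l = cf G i l j := by
  rw [cf, cf, pderiv_comm j l]

theorem cf_add (G H : MvPolynomial ν A) (i j l : ν) : cf (G + H) i j l = cf G i j l + cf H i j l := by
  simp [cf]

theorem cf_smul (a : A) (G : MvPolynomial ν A) (i j l : ν) : cf (a • G) i j l = a * cf G i j l := by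
  simp only [cf, Derivation.map_smul, coeff_smul, smul_eq_mul, mul_smul_comm]

theorem cf_map {A' : Type*} [CommRing A'] [Algebra ℚ A'] (φ : A →+* A') (G : MvPolynomial ν A)
    (i j l : ν) : cf (map φ G) i j l = φ (cf G i j l) := by
  simp only [cf, pderiv_map, coeff_map, map_rat_smul]

variable {R : Type*} [CommRing R] [Algebra A R]

/-- the polar form -/
def pol (G : MvPolynomial ν A) : (ν → R) →ₗ[R] (ν → R) →ₗ[R] (ν → R) →ₗ[R] R :=
  ∑ i, ∑ j, ∑ l, algebraMap A R (cf G i j l) •
    (LinearMap.proj i).smulRight ((LinearMap.proj j).smulRight (LinearMap.proj l))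

theorem pol_apply (G : MvPolynomial ν A) (u v w : ν → R) :
    pol G u v w = ∑ i, ∑ j, ∑ l, algebraMap A R (cf G i j l) * (u i * (v j * w l)) := by
  simp only [pol, LinearMap.sum_apply, LinearMap.smul_apply, LinearMap.smulRight_apply,
    LinearMap.proj_apply, smul_eq_mul]

variable (G : MvPolynomial ν A)

theorem pol_12 (u v w : ν → R) : pol G u v w = pol G v u w := by
  rw [pol_apply, pol_apply, Finset.sum_comm]
  refine Finset.sum_congr rfl fun i _ => Finset.sum_congr rfl fun j _ =>
    Finset.sum_congr rfl fun l _ => ?_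
  rw [cf_12]
  ring

theorem pol_23 (u v w : ν → R) : pol G u v w = pol G u w v := by
  rw [pol_apply, pol_apply]
  refine Finset.sum_congr rfl fun i _ => ?_
  rw [Finset.sum_comm]
  refine Finset.sum_congr rfl fun j _ => Finset.sum_congr rfl fun l _ => ?_
  rw [cf_23]
  ring

theorem pol_13 (u v w : ν → R) : pol G u v w = pol G w v u := by
  rw [pol_12, pol_23, pol_12]

theorem pol_add (H : MvPolynomial ν A) (u v w : ν → R) :
    pol (G + H) u v w = pol G u v w + pol H u v w := by
  simp only [pol_apply, cf_add, map_add, add_mul, Finset.sum_add_distrib]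

theorem pol_smul (a : A) (u v w : ν → R) :
    pol (a • G) u v w = algebraMap A R a * pol G u v w := by
  simp only [pol_apply, cf_smul, map_mul, Finset.mul_sum, mul_assoc]

/-- naturality -/
theorem map_pol {A' R' : Type*} [CommRing A'] [Algebra ℚ A'] [CommRing R'] [Algebra A' R']
    (φ : A →+* A') (ψ : R →+* R') (h : ∀ a, ψ (algebraMap A R a) = algebraMap A' R' (φ a))
    (u v w : ν → R) : ψ (pol G u v w) = pol (map φ G) (ψ ∘ u) (ψ ∘ v) (ψ ∘ w) := by
  simp only [pol_apply, map_sum, map_mul, h, cf_map, Function.comp_apply]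

theorem algHom_pol {R' : Type*} [CommRing R'] [Algebra A R'] (ψ : R →ₐ[A] R')
    (u v w : ν → R) : ψ (pol G u v w) = pol G (ψ ∘ u) (ψ ∘ v) (ψ ∘ w) := by
  simp only [pol_apply, map_sum, map_mul, AlgHom.commutes, Function.comp_apply]

theorem pol_eq_sum [DecidableEq ν] (u v w : ν → R) :
    pol G u v w = ∑ i, w i * pol G u v (Pi.single i 1) := by
  conv_lhs => rw [← Finset.univ_sum_single w, map_sum]
  refine Finset.sum_congr rfl fun i _ => ?_
  rw [← smul_eq_mul, ← map_smul, ← Pi.single_smul, smul_eq_mul, mul_one]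

theorem deriv_pol {M : Type*} [AddCommGroup M] [Module R M] [Module A M] [IsScalarTower A R M]
    [DecidableEq ν] (D : Derivation A R M) (u v w : ν → R) :
    D (pol G u v w) = ∑ i, (pol G v w (Pi.single i 1) • D (u i) +
      pol G u w (Pi.single i 1) • D (v i) + pol G u v (Pi.single i 1) • D (w i)) := by
  have key : ∀ (a b c : ν → R), (∑ i, pol G a b (Pi.single i 1) • D (c i)) =
      ∑ i, ∑ j, ∑ l, (algebraMap A R (cf G i j l) * (a i * b j)) • D (c l) := by
    intro a b c
    simp only [pol_apply, Finset.sum_smul]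
    rw [Finset.sum_comm]
    refine Finset.sum_congr rfl fun i _ => ?_
    rw [Finset.sum_comm]
    refine Finset.sum_congr rfl fun j _ => Finset.sum_congr rfl fun l _ => ?_
    rw [Finset.sum_eq_single l]
    · simp
    · intro b _ hb
      simp [Pi.single_eq_of_ne hb]
    · simp
  rw [Finset.sum_add_distrib, Finset.sum_add_distrib, key, key, key]
  have e1 : (∑ i, ∑ j, ∑ l, (algebraMap A R (cf G i j l) * (v i * w j)) • D (u l)) =
      ∑ i, ∑ j, ∑ l, (algebraMap A R (cf G i j l) * (v j * w l)) • D (u i) := by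
    rw [Finset.sum_congr rfl fun i _ => Finset.sum_comm, Finset.sum_comm]
    refine Finset.sum_congr rfl fun i _ => Finset.sum_congr rfl fun j _ =>
      Finset.sum_congr rfl fun l _ => ?_
    rw [cf_23, cf_12]
  have e2 : (∑ i, ∑ j, ∑ l, (algebraMap A R (cf G i j l) * (u i * w j)) • D (v l)) =
      ∑ i, ∑ j, ∑ l, (algebraMap A R (cf G i j l) * (u i * w l)) • D (v j) := by
    refine Finset.sum_congr rfl fun i _ => ?_
    rw [Finset.sum_comm]
    refine Finset.sum_congr rfl fun j _ => Finset.sum_congr rfl fun l _ => ?_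
    rw [cf_23]
  rw [e1, e2, pol_apply, map_sum, ← Finset.sum_add_distrib, ← Finset.sum_add_distrib]
  refine Finset.sum_congr rfl fun i _ => ?_
  rw [map_sum, ← Finset.sum_add_distrib, ← Finset.sum_add_distrib]
  refine Finset.sum_congr rfl fun j _ => ?_
  rw [map_sum, ← Finset.sum_add_distrib, ← Finset.sum_add_distrib]
  refine Finset.sum_congr rfl fun l _ => ?_
  simp only [Derivation.leibniz, Derivation.map_algebraMap, smul_zero, add_zero, smul_add,
    smul_smul]
  rw [mul_comm (u i) (w l), mul_comm (v j) (w l)]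
  abel

/-- Leibniz rule for derivations of `R` -/
theorem deriv_pol' (D : Derivation A R R) (u v w : ν → R) :
    D (pol G u v w) = pol G (D ∘ u) v w + pol G u (D ∘ v) w + pol G u v (D ∘ w) := by
  classical
  rw [deriv_pol, Finset.sum_add_distrib, Finset.sum_add_distrib, pol_13 G (D ∘ u), pol_12 G w v,
    pol_23 G u (D ∘ v), pol_eq_sum G v w (D ∘ u), pol_eq_sum G u w (D ∘ v),
    pol_eq_sum G u v (D ∘ w)]
  simp only [smul_eq_mul, Function.comp_apply, mul_comm]

variable {G}

theorem eq_C_of_hom0 {H : MvPolynomial ν A} (h : H.IsHomogeneous 0) : H = C (coeff 0 H) := by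
  rw [← homogeneousComponent_zero, homogeneousComponent_of_mem (n := 0) h, if_pos rfl]

theorem six_cf (G : MvPolynomial ν A) (i j l : ν) :
    6 * cf G i j l = coeff 0 (pderiv i (pderiv j (pderiv l G))) := by
  have : (6 : A) = (6 : ℚ) • (1 : A) := by
    rw [Algebra.smul_def, mul_one, map_ofNat]
  rw [cf, this, smul_mul_assoc, one_mul, smul_smul]
  norm_num

theorem cancel_nat (A : Type*) [CommRing A] [Algebra ℚ A] {R : Type*} [CommRing R] [Algebra A R]
    {n : ℕ} (hn : n ≠ 0) {a b : R} (h : (n : R) * a = n * b) : a = b := by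
  have h1 : algebraMap A R (algebraMap ℚ A (n : ℚ)⁻¹) * (n : R) = 1 := by
    rw [← map_natCast (algebraMap A R), ← map_natCast (algebraMap ℚ A), ← map_mul, ← map_mul,
      inv_mul_cancel₀ (by exact_mod_cast hn), map_one, map_one]
  rw [← one_mul a, ← one_mul b, ← h1, mul_assoc, h, mul_assoc]

theorem aeval_pderiv2 [DecidableEq ν] (hG : G.IsHomogeneous 3) (u : ν → R) (j l : ν) :
    aeval u (pderiv j (pderiv l G)) = ∑ i, 6 * algebraMap A R (cf G i j l) * u i := by
  have h1 : (pderiv j (pderiv l G)).IsHomogeneous 1 := hG.pderiv.pderiv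
  have h2 := h1.sum_X_mul_pderiv
  rw [one_smul] at h2
  rw [← h2, map_sum]
  refine Finset.sum_congr rfl fun i _ => ?_
  rw [map_mul, aeval_X, eq_C_of_hom0 (h1.pderiv (i := i)), aeval_C, ← six_cf, map_mul, map_ofNat,
    mul_comm]

theorem aeval_pderiv [DecidableEq ν] (hG : G.IsHomogeneous 3) (u : ν → R) (l : ν) :
    aeval u (pderiv l G) = 3 * pol G u u (Pi.single l 1) := by
  have h1 : (pderiv l G).IsHomogeneous 2 := hG.pderiv
  have h2 := congrArg (aeval u) h1.sum_X_mul_pderiv
  rw [map_sum, map_nsmul, nsmul_eq_mul] at h2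
  refine cancel_nat A (n := 2) two_ne_zero ?_
  rw [← h2, pol_apply, Finset.sum_comm, Finset.mul_sum, Finset.mul_sum]
  refine Finset.sum_congr rfl fun j _ => ?_
  rw [map_mul, aeval_X, aeval_pderiv2 hG, Finset.mul_sum, Finset.mul_sum, Finset.mul_sum]
  refine Finset.sum_congr rfl fun i _ => ?_
  rw [Finset.sum_eq_single l]
  · simp only [Pi.single_eq_same, Nat.cast_ofNat]
    ring
  · intro b _ hb
    simp [Pi.single_eq_of_ne hb]
  · simp

theorem aeval_eq_pol (hG : G.IsHomogeneous 3) (u : ν → R) : aeval u G = pol G u u u := by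
  classical
  have h2 := congrArg (aeval u) hG.sum_X_mul_pderiv
  rw [map_sum, map_nsmul, nsmul_eq_mul] at h2
  refine cancel_nat A (n := 3) three_ne_zero ?_
  rw [← h2, pol_eq_sum G u u u, Finset.mul_sum]
  refine Finset.sum_congr rfl fun l _ => ?_
  rw [map_mul, aeval_X, aeval_pderiv hG]
  simp only [Nat.cast_ofNat]
  ring

/-- the restriction to a line -/
theorem pol_line (G : MvPolynomial ν A) (s t : R) (x y : ν → R) :
    pol G (s • x + t • y) (s • x + t • y) (s • x + t • y) =
      s ^ 3 * pol G x x x + 3 * s ^ 2 * t * pol G x x y + 3 * s * t ^ 2 * pol G x y y +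
        t ^ 3 * pol G y y y := by
  simp only [map_add, map_smul, LinearMap.add_apply, LinearMap.smul_apply, smul_eq_mul]
  rw [pol_23 G x y x, pol_12 G y x x, pol_23 G x y x, pol_12 G y x y, pol_13 G y y x]
  ring

theorem pol_line2 (G : MvPolynomial ν A) (s t : R) (x y w : ν → R) :
    pol G (s • x + t • y) (s • x + t • y) w =
      s ^ 2 * pol G x x w + 2 * s * t * pol G x y w + t ^ 2 * pol G y y w := by
  simp only [map_add, map_smul, LinearMap.add_apply, LinearMap.smul_apply, smul_eq_mul]
  rw [pol_12 G y x w]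
  ring

/-- the polar form of three weighted homogeneous vectors -/
theorem pol_whom {σ M : Type*} [AddCommMonoid M] (G : MvPolynomial ν A) {wt : σ → M}
    {u v w : ν → MvPolynomial σ A} {a b c : M} (hu : ∀ i, (u i).IsWeightedHomogeneous wt a)
    (hv : ∀ i, (v i).IsWeightedHomogeneous wt b) (hw : ∀ i, (w i).IsWeightedHomogeneous wt c) :
    (pol G u v w).IsWeightedHomogeneous wt (a + (b + c)) := by
  rw [pol_apply]
  refine IsWeightedHomogeneous.sum _ _ _ fun i _ => IsWeightedHomogeneous.sum _ _ _ fun j _ =>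
    IsWeightedHomogeneous.sum _ _ _ fun l _ => ?_
  have := (isWeightedHomogeneous_C wt (cf G i j l)).mul ((hu i).mul ((hv j).mul (hw l)))
  rwa [zero_add] at this

end

end Crest.Agent.X262.Fano21
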