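import Crest.Agent.X262.Fano21.Soc
import Crest.Agent.X262.Fano21.Pol

/-!
# Row 262, FANO-ALG (helper21), part 5: the cone of frames of lines on a smooth cubic fourfold

`Z = {(x, y) : φ(x,x,x) = φ(x,x,y) = φ(x,y,y) = φ(y,y,y) = 0} ⊆ k⁶ × k⁶`.

* `SmC G`   : smooth cubic forms; `SmC.eq_zero` : smoothness over every field;
* `SmC.rank`: lines are unobstructed;
* `frames`  : `Z` is a complete intersection cone, smooth off `x ∧ y = 0`  (`CI`);
* `cone`    : the cone over the cubic itself.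
-/

set_option autoImplicit false
set_option linter.unusedSectionVars false

open MvPolynomial

namespace Crest.Agent.X262.Fano21

noncomputable section

variable {k : Type} [Field k] [IsAlgClosed k] [CharZero k] {ν : Type} [Fintype ν] [DecidableEq ν]

/-- smooth cubic forms -/
structure SmC (G : MvPolynomial ν k) : Prop where
  hom : G.IsHomogeneous 3
  sm : ∀ p : ν → k, p ≠ 0 → eval p G = 0 → ∃ i, eval p (pderiv i G) ≠ 0

variable {G : MvPolynomial ν k}

theorem eval_eq_pol (hG : G.IsHomogeneous 3) (u : ν → k) : eval u G = pol G u u u := by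
  rw [← coe_aeval_eq_eval]; exact aeval_eq_pol hG u

theorem eval_pderiv (hG : G.IsHomogeneous 3) (u : ν → k) (l : ν) :
    eval u (pderiv l G) = 3 * pol G u u (Pi.single l 1) := by
  rw [← coe_aeval_eq_eval]; exact aeval_pderiv hG u l

theorem SmC.zero_of_pderiv (h : SmC G) (z : ν → k) (hz : ∀ i, eval z (pderiv i G) = 0) : z = 0 := by
  by_contra hne
  have h1 : ∀ i, pol G z z (Pi.single i 1) = 0 := fun i => by
    have := hz i
    rw [eval_pderiv h.hom] at this
    exact (mul_eq_zero.1 this).resolve_left (by norm_num)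
  obtain ⟨i, hi⟩ := h.sm z hne (by rw [eval_eq_pol h.hom, pol_eq_sum]; simp [h1])
  exact hi (hz i)

theorem SmC.pow_mem (h : SmC G) (s : ν) :
    ∃ n, (X s : MvPolynomial ν k) ^ n ∈ Ideal.span (Set.range fun i => pderiv i G) :=
  pow_mem_of_vanish fun z hz => by
    rw [h.zero_of_pderiv z fun i => hz _ (Ideal.subset_span ⟨i, rfl⟩)]
    simp

/-- smoothness over every reduced algebra -/
theorem SmC.eq_zero (h : SmC G) {K : Type*} [CommRing K] [IsReduced K] [Algebra k K] (u : ν → K)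
    (hu : ∀ i, pol G u u (Pi.single i 1) = 0) : u = 0 := by
  funext s
  obtain ⟨n, hn⟩ := h.pow_mem s
  have h1 : Ideal.span (Set.range fun i => pderiv i G) ≤
      RingHom.ker (aeval u : MvPolynomial ν k →ₐ[k] K) := Ideal.span_le.2 (by
    rintro _ ⟨i, rfl⟩
    rw [SetLike.mem_coe, RingHom.mem_ker, aeval_pderiv h.hom, hu, mul_zero])
  have h2 := h1 hn
  rw [RingHom.mem_ker, map_pow, aeval_X] at h2
  exact IsReduced.eq_zero _ ⟨n, h2⟩

theorem exists_st {K : Type*} [Field K] [IsAlgClosed K] (a b c d : K)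
    (h : ¬ (a = 0 ∧ b = 0 ∧ c = 0 ∧ d = 0)) : ∃ s t u v : K, ¬ (s = 0 ∧ t = 0) ∧
      s ^ 2 = u * a + v * b ∧ s * t = u * b + v * c ∧ t ^ 2 = u * c + v * d := by
  have key : ∀ p q r : K, p * r = q ^ 2 → ¬ (p = 0 ∧ r = 0) →
      ∃ s t : K, ¬ (s = 0 ∧ t = 0) ∧ s ^ 2 = p ∧ s * t = q ∧ t ^ 2 = r := by
    intro p q r h1 h2
    by_cases hp : p = 0
    · obtain ⟨t, ht⟩ := IsAlgClosed.exists_pow_nat_eq r two_pos
      have hq : q = 0 := by
        rw [hp, zero_mul] at h1
        exact pow_eq_zero_iff two_ne_zero |>.1 h1.symm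
      refine ⟨0, t, fun h3 => h2 ⟨hp, by rw [← ht, h3.2]; simp⟩, by simp [hp], by simp [hq], ht⟩
    · obtain ⟨s, hs⟩ := IsAlgClosed.exists_pow_nat_eq p two_pos
      have hs0 : s ≠ 0 := fun h3 => hp (by rw [← hs, h3]; simp)
      refine ⟨s, q / s, fun h3 => hs0 h3.1, hs, by field_simp, ?_⟩
      rw [div_pow, hs, ← h1]
      field_simp
  by_cases h1 : a * c = b ^ 2
  · by_cases h2 : a = 0 ∧ c = 0
    · have hb : b = 0 := by
        rw [h2.1, zero_mul] at h1
        exact pow_eq_zero_iff two_ne_zero |>.1 h1.symm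
      have hd : d ≠ 0 := fun hd => h ⟨h2.1, hb, h2.2, hd⟩
      obtain ⟨s, t, h3, h4, h5, h6⟩ := key b c d (by simp [hb, h2.2]) fun h3 => hd h3.2
      exact ⟨s, t, 0, 1, h3, by simpa using h4, by simpa using h5, by simpa using h6⟩
    · obtain ⟨s, t, h3, h4, h5, h6⟩ := key a b c h1 h2
      exact ⟨s, t, 1, 0, h3, by simpa using h4, by simpa using h5, by simpa using h6⟩
  · have hq : a * c - b ^ 2 ≠ 0 := sub_ne_zero.2 h1
    obtain ⟨u, hu⟩ := IsAlgClosed.exists_root (Polynomial.C (a * c - b ^ 2) * Polynomial.X ^ 2 +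
      Polynomial.C (a * d - b * c) * Polynomial.X + Polynomial.C (b * d - c ^ 2))
      (by rw [Polynomial.degree_quadratic hq]; decide)
    simp only [Polynomial.IsRoot, Polynomial.eval_add, Polynomial.eval_mul, Polynomial.eval_C,
      Polynomial.eval_pow, Polynomial.eval_X] at hu
    have h2 : (u * a + b) * (u * c + d) = (u * b + c) ^ 2 := by linear_combination hu
    obtain ⟨s, t, h3, h4, h5, h6⟩ := key _ _ _ h2 fun h3 => by
      have h4 : u * b + c = 0 := by
        rw [h3.1, zero_mul] at h2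
        exact pow_eq_zero_iff two_ne_zero |>.1 h2.symm
      exact hq (by linear_combination a * h4 - b * h3.1)
    exact ⟨s, t, u, 1, h3, by simpa using h4, by simpa using h5, by simpa using h6⟩

theorem SmC.rank_aux (h : SmC G) {K : Type*} [Field K] [IsAlgClosed K] [Algebra k K]
    {x y : ν → K} (hxy : ∃ i j, x i * y j - x j * y i ≠ 0) {a b c d : K}
    (h1 : ∀ i, a * pol G x x (Pi.single i 1) + 2 * b * pol G x y (Pi.single i 1) +
      c * pol G y y (Pi.single i 1) = 0)
    (h2 : ∀ i, b * pol G x x (Pi.single i 1) + 2 * c * pol G x y (Pi.single i 1) +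
      d * pol G y y (Pi.single i 1) = 0) : a = 0 ∧ b = 0 ∧ c = 0 ∧ d = 0 := by
  by_contra hne
  obtain ⟨s, t, u, v, h3, h4, h5, h6⟩ := exists_st a b c d hne
  have h7 := h.eq_zero (s • x + t • y) fun i => by
    rw [pol_line2, h4, h6, mul_assoc 2 s t, h5]
    linear_combination u * h1 i + v * h2 i
  obtain ⟨i, j, hij⟩ := hxy
  have e1 : s * x i + t * y i = 0 := congrFun h7 i
  have e2 : s * x j + t * y j = 0 := congrFun h7 j
  refine h3 ⟨(mul_eq_zero.1 ?_).resolve_right hij, (mul_eq_zero.1 ?_).resolve_right hij⟩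
  · linear_combination y j * e1 - y i * e2
  · linear_combination x i * e2 - x j * e1

/-- **lines are unobstructed** -/
theorem SmC.rank (h : SmC G) {K : Type*} [Field K] [Algebra k K]
    {x y : ν → K} (hxy : ∃ i j, x i * y j - x j * y i ≠ 0) {a b c d : K}
    (h1 : ∀ i, a * pol G x x (Pi.single i 1) + 2 * b * pol G x y (Pi.single i 1) +
      c * pol G y y (Pi.single i 1) = 0)
    (h2 : ∀ i, b * pol G x x (Pi.single i 1) + 2 * c * pol G x y (Pi.single i 1) +
      d * pol G y y (Pi.single i 1) = 0) : a = 0 ∧ b = 0 ∧ c = 0 ∧ d = 0 := by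
  set L := AlgebraicClosure K
  set ψ : K →ₐ[k] L := IsScalarTower.toAlgHom k K L with hψ
  have hinj : Function.Injective ψ := ψ.toRingHom.injective
  have hs : ∀ i, (ψ ∘ (Pi.single i 1 : ν → K)) = Pi.single i 1 := by
    intro i
    funext j
    by_cases hj : j = i
    · subst hj; simp
    · simp [Pi.single_eq_of_ne hj]
  obtain ⟨i, j, hij⟩ := hxy
  obtain ⟨e1, e2, e3, e4⟩ := h.rank_aux (K := L) (x := ψ ∘ x) (y := ψ ∘ y)
    (a := ψ a) (b := ψ b) (c := ψ c) (d := ψ d) ⟨i, j, by
      simp only [Function.comp_apply, ← map_mul, ← map_sub]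
      exact (map_ne_zero_iff ψ hinj).2 hij⟩
    (fun i => by
      have := congrArg ψ (h1 i)
      simpa only [map_add, map_mul, algHom_pol, hs, map_zero, map_ofNat] using this)
    (fun i => by
      have := congrArg ψ (h2 i)
      simpa only [map_add, map_mul, algHom_pol, hs, map_zero, map_ofNat] using this)
  exact ⟨(map_eq_zero_iff ψ hinj).1 e1, (map_eq_zero_iff ψ hinj).1 e2,
    (map_eq_zero_iff ψ hinj).1 e3, (map_eq_zero_iff ψ hinj).1 e4⟩

section tangent

variable {K : Type*} [CommRing K] [Algebra k K]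

/-- the four equations of a frame -/
def eqs (G : MvPolynomial ν k) (x y : ν → K) : Fin 4 → K :=
  ![pol G x x x, pol G x x y, pol G x y y, pol G y y y]

/-- their differential -/
def tan (G : MvPolynomial ν k) (x y : ν → K) : (ν ⊕ ν → K) →ₗ[K] (Fin 4 → K) :=
  LinearMap.pi ![(3 : K) • (pol G x x).comp (LinearMap.funLeft K K Sum.inl),
    (2 : K) • (pol G x y).comp (LinearMap.funLeft K K Sum.inl) +
      (pol G x x).comp (LinearMap.funLeft K K Sum.inr),
    (pol G y y).comp (LinearMap.funLeft K K Sum.inl) +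
      (2 : K) • (pol G x y).comp (LinearMap.funLeft K K Sum.inr),
    (3 : K) • (pol G y y).comp (LinearMap.funLeft K K Sum.inr)]

theorem tan_apply (G : MvPolynomial ν k) (x y : ν → K) (v : ν ⊕ ν → K) :
    tan G x y v = ![3 * pol G x x (v ∘ Sum.inl),
      2 * pol G x y (v ∘ Sum.inl) + pol G x x (v ∘ Sum.inr),
      pol G y y (v ∘ Sum.inl) + 2 * pol G x y (v ∘ Sum.inr), 3 * pol G y y (v ∘ Sum.inr)] := by
  funext i
  fin_cases i <;> rfl

theorem deriv_eqs (G : MvPolynomial ν k) (D : Derivation k K K) (z : ν ⊕ ν → K) (i : Fin 4) :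
    D (eqs G (z ∘ Sum.inl) (z ∘ Sum.inr) i) =
      tan G (z ∘ Sum.inl) (z ∘ Sum.inr) (D ∘ z) i := by
  rw [tan_apply]
  set x := z ∘ Sum.inl
  set y := z ∘ Sum.inr
  have hx : (D ∘ z) ∘ Sum.inl = D ∘ x := rfl
  have hy : (D ∘ z) ∘ Sum.inr = D ∘ y := rfl
  rw [hx, hy]
  fin_cases i
  · change D (pol G x x x) = 3 * pol G x x (D ∘ x)
    rw [deriv_pol', pol_13 G (D ∘ x), pol_23 G x (D ∘ x)]
    ring
  · change D (pol G x x y) = 2 * pol G x y (D ∘ x) + pol G x x (D ∘ y)
    rw [deriv_pol', pol_13 G (D ∘ x), pol_23 G x (D ∘ x), pol_12 G y x]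
    ring
  · change D (pol G x y y) = pol G y y (D ∘ x) + 2 * pol G x y (D ∘ y)
    rw [deriv_pol', pol_13 G (D ∘ x), pol_23 G x (D ∘ y)]
    ring
  · change D (pol G y y y) = 3 * pol G y y (D ∘ y)
    rw [deriv_pol', pol_13 G (D ∘ y), pol_23 G y (D ∘ y)]
    ring

theorem map_eqs {K' : Type*} [CommRing K'] [Algebra k K'] (ψ : K →ₐ[k] K') (G : MvPolynomial ν k)
    (x y : ν → K) (i : Fin 4) : ψ (eqs G x y i) = eqs G (ψ ∘ x) (ψ ∘ y) i := by
  fin_cases i <;> exact algHom_pol G ψ _ _ _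

end tangent

theorem SmC.tan_indep (h : SmC G) {K : Type*} [Field K] [Algebra k K]
    {x y : ν → K} (hxy : ∃ i j, x i * y j - x j * y i ≠ 0) (l : Fin 4 → K)
    (hl : ∀ v, ∑ i, l i * tan G x y v i = 0) : l = 0 := by
  have : CharZero K := charZero_of_injective_algebraMap (algebraMap k K).injective
  obtain ⟨e1, e2, e3, e4⟩ := h.rank hxy (a := 3 * l 0) (b := l 1) (c := l 2) (d := 3 * l 3)
    (fun i => by
      have h1 := hl (Sum.elim (Pi.single i 1) 0)
      simp only [tan_apply, Fin.sum_univ_four, Sum.elim_comp_inl, Sum.elim_comp_inr, map_zero,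
        Matrix.cons_val_zero, Matrix.cons_val_one, Matrix.cons_val] at h1
      linear_combination h1)
    (fun i => by
      have h1 := hl (Sum.elim 0 (Pi.single i 1))
      simp only [tan_apply, Fin.sum_univ_four, Sum.elim_comp_inl, Sum.elim_comp_inr, map_zero,
        Matrix.cons_val_zero, Matrix.cons_val_one, Matrix.cons_val] at h1
      linear_combination h1)
  funext i
  fin_cases i
  · exact (mul_eq_zero.1 e1).resolve_left (by norm_num)
  · exact e2
  · exact e3
  · exact (mul_eq_zero.1 e4).resolve_left (by norm_num)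

theorem range_eq_top_of_indep {K V : Type*} [Field K] [AddCommGroup V] [Module K V] {c : ℕ}
    (T : V →ₗ[K] (Fin c → K)) (h : ∀ l : Fin c → K, (∀ v, ∑ i, l i * T v i = 0) → l = 0) :
    LinearMap.range T = ⊤ := by
  by_contra hne
  obtain ⟨φ, hφ, hle⟩ := Submodule.exists_le_ker_of_lt_top _ (lt_top_iff_ne_top.2 hne)
  have h1 := h (fun i => φ (Pi.single i 1)) fun v => by
    have h2 : φ (T v) = 0 := hle ⟨v, rfl⟩
    rw [← h2]
    conv_rhs => rw [← Finset.univ_sum_single (T v), map_sum]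
    refine Finset.sum_congr rfl fun i _ => ?_
    rw [mul_comm, ← smul_eq_mul, ← map_smul, ← Pi.single_smul, smul_eq_mul, mul_one]
  apply hφ
  ext i
  exact congrFun h1 i

theorem SmC.tan_surj (h : SmC G) {K : Type*} [Field K] [Algebra k K]
    {x y : ν → K} (hxy : ∃ i j, x i * y j - x j * y i ≠ 0) : LinearMap.range (tan G x y) = ⊤ :=
  range_eq_top_of_indep _ (h.tan_indep hxy)

/-- the first point -/
def xx (k ν : Type) [Field k] : ν → MvPolynomial (ν ⊕ ν) k := fun i => X (Sum.inl i)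

/-- the second point -/
def yy (k ν : Type) [Field k] : ν → MvPolynomial (ν ⊕ ν) k := fun i => X (Sum.inr i)

/-- the Pluecker coordinates -/
def plk (k : Type) [Field k] {ν : Type} (ij : ν × ν) : MvPolynomial (ν ⊕ ν) k :=
  xx k ν ij.1 * yy k ν ij.2 - xx k ν ij.2 * yy k ν ij.1

section ev

variable {K : Type*} [CommRing K] [Algebra k K] (z : ν ⊕ ν → K)

theorem aeval_xx : (aeval z : MvPolynomial (ν ⊕ ν) k →ₐ[k] K) ∘ xx k ν = z ∘ Sum.inl := by
  funext i; simp [xx]

theorem aeval_yy : (aeval z : MvPolynomial (ν ⊕ ν) k →ₐ[k] K) ∘ yy k ν = z ∘ Sum.inr := by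
  funext i; simp [yy]

theorem aeval_eqs (G : MvPolynomial ν k) (i : Fin 4) :
    aeval z (eqs G (xx k ν) (yy k ν) i) = eqs G (z ∘ Sum.inl) (z ∘ Sum.inr) i := by
  rw [map_eqs, aeval_xx, aeval_yy]

theorem aeval_plk (ij : ν × ν) : aeval z (plk k ij) =
    z (Sum.inl ij.1) * z (Sum.inr ij.2) - z (Sum.inl ij.2) * z (Sum.inr ij.1) := by
  simp [plk, xx, yy]

end ev

theorem eval_eqs (z : ν ⊕ ν → k) (G : MvPolynomial ν k) (i : Fin 4) :
    eval z (eqs G (xx k ν) (yy k ν) i) = eqs G (z ∘ Sum.inl) (z ∘ Sum.inr) i := by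
  rw [← coe_aeval_eq_eval]; exact aeval_eqs z G i

theorem eval_plk (z : ν ⊕ ν → k) (ij : ν × ν) : eval z (plk k ij) =
    z (Sum.inl ij.1) * z (Sum.inr ij.2) - z (Sum.inl ij.2) * z (Sum.inr ij.1) := by
  simp [plk, xx, yy]

theorem snd_pol (G : MvPolynomial ν k) (u v w : ν → DualNumber k) :
    (pol G u v w).snd =
      pol G (fun i => (u i).snd) (fun i => (v i).fst) (fun i => (w i).fst) +
      pol G (fun i => (u i).fst) (fun i => (v i).snd) (fun i => (w i).fst) +
      pol G (fun i => (u i).fst) (fun i => (v i).fst) (fun i => (w i).snd) := by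
  simp only [pol_apply, TrivSqZeroExt.snd_sum, ← Finset.sum_add_distrib]
  refine Finset.sum_congr rfl fun i _ => Finset.sum_congr rfl fun j _ =>
    Finset.sum_congr rfl fun l _ => ?_
  simp only [TrivSqZeroExt.snd_mul, TrivSqZeroExt.fst_mul, TrivSqZeroExt.algebraMap_eq_inl,
    TrivSqZeroExt.fst_inl, TrivSqZeroExt.snd_inl, smul_eq_mul, MulOpposite.smul_eq_mul_unop,
    MulOpposite.unop_op, Algebra.algebraMap_self, RingHom.id_apply]
  ring

theorem dv_eqs (G : MvPolynomial ν k) (z v : ν ⊕ ν → k) (i : Fin 4) :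
    dv z v (eqs G (xx k ν) (yy k ν) i) = tan G (z ∘ Sum.inl) (z ∘ Sum.inr) v i := by
  rw [dv, aeval_eqs, tan_apply]
  set x := z ∘ Sum.inl
  set y := z ∘ Sum.inr
  set u := v ∘ Sum.inl
  set w := v ∘ Sum.inr
  have e1 : (fun i => ((pt z v ∘ Sum.inl) i).fst) = x := by funext i; simp [x]
  have e2 : (fun i => ((pt z v ∘ Sum.inr) i).fst) = y := by funext i; simp [y]
  have e3 : (fun i => ((pt z v ∘ Sum.inl) i).snd) = u := by funext i; simp [u]
  have e4 : (fun i => ((pt z v ∘ Sum.inr) i).snd) = w := by funext i; simp [w]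
  fin_cases i
  · change TrivSqZeroExt.snd (pol G (pt z v ∘ Sum.inl) (pt z v ∘ Sum.inl) (pt z v ∘ Sum.inl)) =
      3 * pol G x x u
    rw [snd_pol, e1, e3, pol_13 G u, pol_23 G x u]
    ring
  · change TrivSqZeroExt.snd (pol G (pt z v ∘ Sum.inl) (pt z v ∘ Sum.inl) (pt z v ∘ Sum.inr)) =
      2 * pol G x y u + pol G x x w
    rw [snd_pol, e1, e2, e3, e4, pol_13 G u, pol_23 G x u, pol_12 G y x]
    ring
  · change TrivSqZeroExt.snd (pol G (pt z v ∘ Sum.inl) (pt z v ∘ Sum.inr) (pt z v ∘ Sum.inr)) =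
      pol G y y u + 2 * pol G x y w
    rw [snd_pol, e1, e2, e3, e4, pol_13 G u, pol_23 G x w]
    ring
  · change TrivSqZeroExt.snd (pol G (pt z v ∘ Sum.inr) (pt z v ∘ Sum.inr) (pt z v ∘ Sum.inr)) =
      3 * pol G y y w
    rw [snd_pol, e2, e4, pol_13 G w, pol_23 G y w]
    ring

/-- the bidegree: weight one on `x` -/
def wx (ν : Type) : ν ⊕ ν → ℕ := Sum.elim 1 0

/-- the bidegree: weight one on `y` -/
def wy (ν : Type) : ν ⊕ ν → ℕ := Sum.elim 0 1

theorem eqs_whom {M : Type*} [AddCommMonoid M] (G : MvPolynomial ν k) {w : ν ⊕ ν → M} {a b : M}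
    (ha : ∀ i, w (Sum.inl i) = a) (hb : ∀ i, w (Sum.inr i) = b) (i : Fin 4) :
    (eqs G (xx k ν) (yy k ν) i).IsWeightedHomogeneous w ((3 - i.val) • a + i.val • b) := by
  have hx : ∀ i, (xx k ν i).IsWeightedHomogeneous w a := fun i =>
    ha i ▸ isWeightedHomogeneous_X k w (Sum.inl i)
  have hy : ∀ i, (yy k ν i).IsWeightedHomogeneous w b := fun i =>
    hb i ▸ isWeightedHomogeneous_X k w (Sum.inr i)
  fin_cases i
  · have e : a + (a + a) = (3 - 0) • a + 0 • b := by simp [succ_nsmul, add_assoc]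
    exact e ▸ pol_whom G hx hx hx
  · have e : a + (a + b) = (3 - 1) • a + 1 • b := by simp [succ_nsmul, add_assoc]
    exact e ▸ pol_whom G hx hx hy
  · have e : a + (b + b) = (3 - 2) • a + 2 • b := by simp [succ_nsmul]
    exact e ▸ pol_whom G hx hy hy
  · have e : b + (b + b) = (3 - 3) • a + 3 • b := by simp [succ_nsmul, add_assoc]
    exact e ▸ pol_whom G hy hy hy

theorem plk_whom {M : Type*} [AddCommMonoid M] {w : ν ⊕ ν → M} {a b : M}
    (ha : ∀ i, w (Sum.inl i) = a) (hb : ∀ i, w (Sum.inr i) = b) (ij : ν × ν) :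
    (plk k ij).IsWeightedHomogeneous w (a + b) := by
  have hx : ∀ i, (xx k ν i).IsWeightedHomogeneous w a := fun i =>
    ha i ▸ isWeightedHomogeneous_X k w (Sum.inl i)
  have hy : ∀ i, (yy k ν i).IsWeightedHomogeneous w b := fun i =>
    hb i ▸ isWeightedHomogeneous_X k w (Sum.inr i)
  exact (weightedHomogeneousSubmodule k w (a + b)).sub_mem ((hx _).mul (hy _)) ((hx _).mul (hy _))

theorem SmC.height_six (h : SmC G) (hν : Fintype.card ν = 6) (Q : Ideal (MvPolynomial (ν ⊕ ν) k))
    [Q.IsPrime] (h1 : eqs G (xx k ν) (yy k ν) 0 ∈ Q) (h2 : ∀ ij, plk k ij ∈ Q) :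
    ((4 + 2 : ℕ) : ℕ∞) ≤ Q.height := by
  set K := FractionRing (MvPolynomial (ν ⊕ ν) k ⧸ Q) with hK
  set x : ν → K := gen Q ∘ Sum.inl with hx
  set y : ν → K := gen Q ∘ Sum.inr with hy
  have : CharZero K := charZero_of_injective_algebraMap (algebraMap k K).injective
  have hp : ∀ i j, x i * y j - x j * y i = 0 := fun i j => by
    have := (aeval_gen_eq_zero Q _).2 (h2 (i, j))
    rwa [aeval_plk] at this
  by_cases hx0 : x = 0
  · let T : (ν → K) →ₗ[K] (ν ⊕ ν → K) :=
      { toFun := fun v => Sum.elim 0 v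
        map_add' := fun a b => by funext s; cases s <;> simp
        map_smul' := fun a b => by funext s; cases s <;> simp }
    refine le_height Q (LinearMap.range T) (fun D => ⟨D ∘ y, ?_⟩) ?_
    · funext s
      cases s with
      | inl i =>
        have : gen Q (Sum.inl i) = 0 := congrFun hx0 i
        simp [T, this]
      | inr i => rfl
    · have h3 := LinearMap.finrank_range_le T
      rw [Module.finrank_fintype_fun_eq_card, hν] at h3
      rw [Fintype.card_sum, hν]
      exact Nat.add_le_add_right h3 _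
  · obtain ⟨i0, hi0⟩ := Function.ne_iff.1 hx0
    have hi0' : x i0 ≠ 0 := hi0
    set c := y i0 / x i0 with hc
    have hyc : ∀ j, y j = c * x j := fun j => by
      rw [hc, div_mul_eq_mul_div, eq_div_iff hi0']
      linear_combination hp i0 j
    set N := LinearMap.ker (pol G x x) with hN
    let T : (N × K) →ₗ[K] (ν ⊕ ν → K) :=
      { toFun := fun v => Sum.elim v.1.1 (v.2 • x + c • v.1.1)
        map_add' := fun a b => by
          funext s
          cases s with
          | inl i => simp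
          | inr i => simp; ring
        map_smul' := fun a b => by
          funext s
          cases s with
          | inl i => simp
          | inr i => simp; ring }
    refine le_height Q (LinearMap.range T) (fun D => ⟨(⟨D ∘ x, ?_⟩, D c), ?_⟩) ?_
    · have h3 := (aeval_gen_eq_zero Q _).2 h1
      rw [aeval_eqs] at h3
      have h4 := deriv_eqs G D (gen Q) 0
      rw [h3, map_zero, tan_apply] at h4
      exact (mul_eq_zero.1 h4.symm).resolve_left (by norm_num)
    · funext s
      cases s with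
      | inl i => rfl
      | inr i =>
        change D c * x i + c * D (x i) = D (y i)
        rw [hyc, Derivation.leibniz, smul_eq_mul, smul_eq_mul]
        ring
    · have h3 := LinearMap.finrank_range_le T
      have h4 : N < ⊤ := by
        rw [lt_top_iff_ne_top]
        intro htop
        refine hx0 (h.eq_zero x fun i => ?_)
        have : (Pi.single i 1 : ν → K) ∈ N := by rw [htop]; trivial
        exact this
      have h5 := Submodule.finrank_lt_finrank_of_lt h4
      rw [finrank_top, Module.finrank_fintype_fun_eq_card, hν] at h5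
      rw [Module.finrank_prod, Module.finrank_self] at h3
      rw [Fintype.card_sum, hν]
      have h6 : Module.finrank K (LinearMap.range T) ≤ 6 := by omega
      exact Nat.add_le_add_right h6 _

theorem SmC.height_four (h : SmC G) (hν : Fintype.card ν = 6) (Q : Ideal (MvPolynomial (ν ⊕ ν) k))
    [Q.IsPrime] (h1 : ∀ i, eqs G (xx k ν) (yy k ν) i ∈ Q) : ((4 : ℕ) : ℕ∞) ≤ Q.height := by
  by_cases h2 : ∀ ij : ν × ν, plk k ij ∈ Q
  · exact le_trans (by exact_mod_cast (by norm_num : 4 ≤ 4 + 2)) (h.height_six hν Q (h1 0) h2)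
  push Not at h2
  obtain ⟨ij, hij⟩ := h2
  rw [← aeval_gen_eq_zero, aeval_plk] at hij
  set T := tan G (gen Q ∘ Sum.inl) (gen Q ∘ Sum.inr) with hT
  refine le_height Q (LinearMap.ker T) (fun D => ?_) ?_
  · funext i
    have h3 := (aeval_gen_eq_zero Q _).2 (h1 i)
    rw [aeval_eqs] at h3
    have h4 := deriv_eqs G D (gen Q) i
    rw [h3, map_zero] at h4
    exact h4.symm
  · have h3 := LinearMap.finrank_range_add_finrank_ker T
    rw [h.tan_surj ⟨ij.1, ij.2, hij⟩, finrank_top, Module.finrank_fintype_fun_eq_card,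
      Module.finrank_fintype_fun_eq_card, Fintype.card_fin] at h3
    rw [← h3, add_comm]

/-- **the cone of frames** -/
def SmC.frames (h : SmC G) (hν : Fintype.card ν = 6) : CI k (ν ⊕ ν) 4 (ν × ν) where
  f := eqs G (xx k ν) (yy k ν)
  p := plk k
  e := 2
  e_pos := two_pos
  f_hom i := ⟨3, three_pos, by
    have := eqs_whom G (w := 1) (a := 1) (b := 1) (fun _ => rfl) (fun _ => rfl) i
    convert this using 1
    fin_cases i <;> rfl⟩
  p_hom ij := plk_whom (w := 1) (a := 1) (b := 1) (fun _ => rfl) (fun _ => rfl) ij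
  h1 Q _ hQ := h.height_four hν Q hQ
  h2 Q _ hQ hp := h.height_six hν Q (hQ 0) hp
  jac z _ hz l hl := by
    obtain ⟨ij, hij⟩ := hz
    rw [eval_plk] at hij
    refine h.tan_indep (x := z ∘ Sum.inl) (y := z ∘ Sum.inr) ⟨ij.1, ij.2, hij⟩ l fun v => ?_
    rw [← hl v]
    exact Finset.sum_congr rfl fun i _ => by rw [dv_eqs]

theorem SmC.mem_frames (h : SmC G) (hν : Fintype.card ν = 6) {z : ν ⊕ ν → k} :
    z ∈ (h.frames hν).Z0 ↔ (∀ i, eqs G (z ∘ Sum.inl) (z ∘ Sum.inr) i = 0) ∧
      ∃ i j, z (Sum.inl i) * z (Sum.inr j) - z (Sum.inl j) * z (Sum.inr i) ≠ 0 := by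
  constructor
  · rintro ⟨h1, ij, h2⟩
    exact ⟨fun i => (eval_eqs z G i).symm.trans (h1 i), ij.1, ij.2, by rwa [← eval_plk z ij]⟩
  · rintro ⟨h1, i, j, h2⟩
    exact ⟨fun i => (eval_eqs z G i).trans (h1 i), (i, j), by rwa [← eval_plk z (i, j)] at h2⟩

theorem SmC.ne_zero (h : SmC G) [Nonempty ν] : G ≠ 0 := by
  rintro rfl
  obtain ⟨i, hi⟩ := h.sm 1 one_ne_zero (by simp)
  simp at hi

/-- **the cone over the cubic** -/
def SmC.cone (h : SmC G) (hν : 3 ≤ Fintype.card ν) : CI k ν 1 ν where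
  f := fun _ => G
  p := X
  e := 1
  e_pos := one_pos
  f_hom _ := ⟨3, three_pos, h.hom⟩
  p_hom := isHomogeneous_X k
  h1 Q _ hQ := by
    have : Nonempty ν := Fintype.card_pos_iff.1 (by omega)
    rw [Nat.cast_one, Order.one_le_iff_ne_zero, Ne, Ideal.height_eq_zero_iff]
    intro hmin
    rw [IsDomain.minimalPrimes_eq_singleton_bot, Set.mem_singleton_iff] at hmin
    have := hQ 0
    rw [hmin, Ideal.mem_bot] at this
    exact h.ne_zero this
  h2 Q _ _ hp := le_trans (by exact_mod_cast hν) (card_le_height (mm_le hp))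
  jac z _ hz l hl := by
    have hz0 : z ≠ 0 := by
      rintro rfl
      simp at hz
    by_contra hne
    have hl0 : l 0 ≠ 0 := fun h0 => hne (by funext i; rw [Subsingleton.elim i 0]; exact h0)
    refine hz0 (h.zero_of_pderiv z fun i => ?_)
    have h1 := hl (Pi.single i 1)
    rw [Fin.sum_univ_one, dv_eq, Finset.sum_eq_single i] at h1
    · simpa [hl0] using h1
    · intro b _ hb
      simp [Pi.single_eq_of_ne hb]
    · simp

end

end Crest.Agent.X262.Fano21
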