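import Crest.Agent.X262.Fano21.Fano

/-!
# Row 262, FANO-ALG (helper21), part 6: the regular sequence `xxx, xxy, xyy, yyy, p, ℓ`

* `WR.snoc`, `CI.sat_sup` (a hypersurface section of the cone has no component in `V(p)`);
* `dim_quot_le` : dimension of a quotient of a polynomial ring from the height;
* `SmC.nz1`, `SmC.nz2`, `SmC.plk_not_mem`, `SmC.frames_prime`.
-/

set_option autoImplicit false
set_option linter.unusedSectionVars false

open MvPolynomial RingTheory.Sequence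

namespace Crest.Agent.X262.Fano21

noncomputable section

section gen

variable {k σ : Type} [Field k] [Fintype σ]

theorem WR.snoc [Infinite k] {L : List (MvPolynomial σ k)} (h : WR L) {a : MvPolynomial σ k}
    (ha : a ∈ mm k σ) (hV : ∀ Q : Ideal (MvPolynomial σ k), Q.IsPrime → Ideal.ofList L ≤ Q →
      a ∈ Q → ((L.length + 1 : ℕ) : ℕ∞) ≤ Q.height) : WR (L ++ [a]) := by
  obtain ⟨g, hg, hW⟩ := h.step (Submodule.span k {a}) (fun r hr => by
      obtain ⟨c, rfl⟩ := Submodule.mem_span_singleton.1 hr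
      rw [smul_eq_C_mul]
      exact Ideal.mul_mem_left _ _ ha)
    fun Q hQ h1 h2 => hV Q hQ h1 (h2 a (Submodule.mem_span_singleton_self a))
  obtain ⟨c, rfl⟩ := Submodule.mem_span_singleton.1 hg
  refine ⟨fun r hr => ?_, ?_⟩
  · rcases List.mem_append.1 hr with hr | hr
    · exact h.mem r hr
    · rw [List.mem_singleton.1 hr]; exact ha
  have h1 := hW.reg
  rw [List.map_append, isWeaklyRegular_append_iff] at h1 ⊢
  refine ⟨h1.1, ?_⟩
  have h2 := h1.2
  simp only [List.map_cons, List.map_nil] at h2 ⊢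
  rw [isWeaklyRegular_singleton_iff] at h2 ⊢
  rw [smul_eq_C_mul, map_mul] at h2
  exact h2.of_mul

theorem dim_quot_le (J : Ideal (MvPolynomial σ k)) {c n : ℕ} (hσ : Fintype.card σ = c + n)
    (hJ : ∀ Q : Ideal (MvPolynomial σ k), Q.IsPrime → J ≤ Q → (c : ℕ∞) ≤ Q.height) :
    ringKrullDim (MvPolynomial σ k ⧸ J) ≤ n := by
  rw [ringKrullDim_quotient, Order.krullDim]
  refine iSup_le fun p => ?_
  set p' := p.map (fun x => (x : PrimeSpectrum (MvPolynomial σ k))) (fun _ _ h => h) with hp'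
  have h1 : (p'.length : ℕ∞) ≤ Order.coheight p'.head := Order.length_le_coheight_head
  have h2 : (c : ℕ∞) ≤ Order.height p'.head := by
    rw [← PrimeSpectrum.height_eq_orderHeight]
    exact hJ _ inferInstance p.head.2
  have h3 : ringKrullDim (MvPolynomial σ k) = ((c + n : ℕ) : ℕ∞) := by
    rw [MvPolynomial.ringKrullDim_of_isNoetherianRing, ringKrullDim_eq_zero_of_field, zero_add,
      Nat.card_eq_fintype_card, hσ]
    rfl
  rw [ringKrullDim, Order.krullDim_eq_iSup_height_add_coheight_of_nonempty, WithBot.coe_inj] at h3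
  have h4 := (add_le_add h2 h1).trans ((le_iSup (fun a : PrimeSpectrum (MvPolynomial σ k) =>
    Order.height a + Order.coheight a) p'.head).trans h3.le)
  have h5 : c + p'.length ≤ c + n := by exact_mod_cast h4
  have h6 : p.length ≤ n := Nat.le_of_add_le_add_left h5
  exact_mod_cast h6

theorem exists_gen [CharZero k] (Q : Ideal (MvPolynomial σ k)) [Q.IsPrime] :
    ∃ (K : Type) (_ : Field K) (_ : Algebra k K) (z : σ → K), ∀ r, aeval z r = 0 ↔ r ∈ Q :=
  ⟨FractionRing (MvPolynomial σ k ⧸ Q), inferInstance, inferInstance, gen Q, aeval_gen_eq_zero Q⟩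

theorem le_height' [CharZero k] (Q : Ideal (MvPolynomial σ k)) [Q.IsPrime] {c : ℕ}
    (H : ∀ (K : Type) [Field K] [Algebra k K] (z : σ → K), (∀ r, aeval z r = 0 ↔ r ∈ Q) →
      ∃ W : Submodule K (σ → K), (∀ D : Derivation k K K, (fun s => D (z s)) ∈ W) ∧
        Module.finrank K W + c ≤ Fintype.card σ) : (c : ℕ∞) ≤ Q.height := by
  obtain ⟨W, h1, h2⟩ := H (FractionRing (MvPolynomial σ k ⧸ Q)) (gen Q) (aeval_gen_eq_zero Q)
  exact le_height Q W h1 h2

end gen

namespace CI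

variable {k σ : Type} [Field k] [IsAlgClosed k] [CharZero k] [Fintype σ] {c : ℕ} {ι : Type}
  (D : CI k σ c ι)

theorem nz {a : MvPolynomial σ k} (ha : a ∉ D.I) : Nz D.I a := fun _ hb =>
  (D.isPrime.mem_or_mem hb).resolve_left ha

theorem height_succ {a : MvPolynomial σ k} (ha : a ∉ D.I) {Q : Ideal (MvPolynomial σ k)}
    [Q.IsPrime] (h1 : D.I ≤ Q) (h2 : a ∈ Q) : ((c + 1 : ℕ) : ℕ∞) ≤ Q.height := by
  have := D.isPrime
  have h3 := D.h1 D.I this D.f_mem
  have h4 : D.I < Q := lt_of_le_of_ne h1 fun h => ha (h ▸ h2)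
  have h5 := h3.trans_lt (Ideal.height_strict_mono_of_isPrime h4)
  rw [Nat.cast_add, Nat.cast_one]
  exact Order.add_one_le_of_lt h5

theorem exists_nz_sup {a : MvPolynomial σ k} {d : ℕ} (hd : 0 < d) (h : a.IsHomogeneous d)
    (ha : a ∉ D.I) : ∃ b ∈ Submodule.span k (Set.range D.p), Nz (D.I ⊔ Ideal.span {a}) b := by
  obtain ⟨L, hlen, hL, -, hI⟩ := exists_WR_span D.f (fun i => D.I_le_mm (D.f_mem i)) D.h1
  have hI' : Ideal.ofList L = D.I := hI
  have hLa : WR (L ++ [a]) := hL.snoc (mem_mm_of_hom h hd) fun Q hQ h1 h2 => by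
    rw [hlen]
    exact D.height_succ ha (hI' ▸ h1) h2
  have hIa : Ideal.ofList (L ++ [a]) = D.I ⊔ Ideal.span {a} := by
    rw [Ideal.ofList_append, hI', Ideal.ofList_singleton]
  obtain ⟨b, hb, hLb⟩ := hLa.step (Submodule.span k (Set.range D.p))
    (fun r hr => mem_mm_of_hom (D.span_hom hr) D.e_pos) fun Q hQ h1 h2 => by
    refine le_trans ?_ (D.h2 Q hQ (fun i => h1 (hIa ▸ Ideal.mem_sup_left (D.f_mem i)))
      fun j => h2 _ (Submodule.subset_span ⟨j, rfl⟩))
    rw [List.length_append, hlen]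
    exact le_of_eq (by simp [add_assoc])
  refine ⟨b, hb, fun r hr => ?_⟩
  rw [← hIa] at hr ⊢
  refine hLb.nz ?_ hr
  rw [hIa]
  exact D.hom_I.sup (hom_span (by rintro _ rfl; exact ⟨_, h⟩))

/-- **saturation of a hypersurface section** -/
theorem sat_sup {a : MvPolynomial σ k} {d : ℕ} (hd : 0 < d) (h : a.IsHomogeneous d)
    (ha : a ∉ D.I) {r : MvPolynomial σ k}
    (hr : ∀ j, ∃ N : ℕ, D.p j ^ N * r ∈ D.I ⊔ Ideal.span {a}) : r ∈ D.I ⊔ Ideal.span {a} := by
  obtain ⟨b, hb, hn⟩ := D.exists_nz_sup hd h ha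
  obtain ⟨n, h1⟩ := D.span_mem (J := ((D.I ⊔ Ideal.span {a}).colon {r}).radical) (fun j => by
    obtain ⟨N, hN⟩ := hr j
    exact ⟨N, Submodule.mem_colon_singleton.2 hN⟩) hb
  exact hn.pow n r (Submodule.mem_colon_singleton.1 h1)

theorem eq_zero_of_lt {e d : ℕ} (hf : ∀ i, (D.f i).IsHomogeneous e) (hd : d < e)
    {a : MvPolynomial σ k} (h : a.IsHomogeneous d) (ha : a ∈ D.I) : a = 0 := by
  obtain ⟨u, hu⟩ := Ideal.mem_span_range_iff_exists_fun.1 ha
  rw [← hc_self h, ← hu, map_sum]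
  exact Finset.sum_eq_zero fun i _ => by rw [mul_comm, hc_mul_lt (hf i) _ hd]

end CI

variable {k : Type} [Field k] [IsAlgClosed k] [CharZero k] {ν : Type} [Fintype ν] [DecidableEq ν]
  {G : MvPolynomial ν k}

theorem eqs_hom (G : MvPolynomial ν k) (i : Fin 4) :
    (eqs G (xx k ν) (yy k ν) i).IsHomogeneous 3 := by
  have := eqs_whom G (w := 1) (a := 1) (b := 1) (fun _ => rfl) (fun _ => rfl) i
  convert this using 1
  fin_cases i <;> rfl

theorem plk_hom (ij : ν × ν) : (plk k ij).IsHomogeneous 2 :=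
  plk_whom (w := 1) (a := 1) (b := 1) (fun _ => rfl) (fun _ => rfl) ij

theorem plk_ne_zero {i j : ν} (h : i ≠ j) : plk k (i, j) ≠ 0 := by
  intro h0
  have := eval_plk (k := k) (Sum.elim (Pi.single i 1) (Pi.single j 1)) (i, j)
  rw [h0] at this
  simp [h, h.symm] at this

theorem SmC.frames_I (h : SmC G) (hν : Fintype.card ν = 6) :
    (h.frames hν).I = Ideal.span (Set.range (eqs G (xx k ν) (yy k ν))) := rfl

theorem SmC.frames_prime (h : SmC G) (hν : Fintype.card ν = 6) :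
    (Ideal.span (Set.range (eqs G (xx k ν) (yy k ν)))).IsPrime := (h.frames hν).isPrime

theorem SmC.plk_not_mem (h : SmC G) (hν : Fintype.card ν = 6) {i j : ν} (hij : i ≠ j) :
    plk k (i, j) ∉ (h.frames hν).I := fun h1 =>
  plk_ne_zero hij ((h.frames hν).eq_zero_of_lt (eqs_hom G) (by norm_num) (plk_hom _) h1)

theorem SmC.height_sub (h : SmC G) (hν : Fintype.card ν = 6) {j : ℕ} (hj : j + 1 ≤ 4)
    (Q : Ideal (MvPolynomial (ν ⊕ ν) k)) [Q.IsPrime]
    (h1 : ∀ i : Fin (j + 1), eqs G (xx k ν) (yy k ν) (Fin.castLE hj i) ∈ Q) :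
    ((j + 1 : ℕ) : ℕ∞) ≤ Q.height := by
  by_cases h2 : ∀ ij : ν × ν, plk k ij ∈ Q
  · exact le_trans (by exact_mod_cast (by omega : j + 1 ≤ 4 + 2)) (h.height_six hν Q (h1 0) h2)
  push Not at h2
  obtain ⟨ij, hij⟩ := h2
  rw [← aeval_gen_eq_zero, aeval_plk] at hij
  set K := FractionRing (MvPolynomial (ν ⊕ ν) k ⧸ Q)
  set T := (LinearMap.funLeft K K (Fin.castLE hj)).comp
    (tan G (gen Q ∘ Sum.inl) (gen Q ∘ Sum.inr)) with hT
  refine le_height Q (LinearMap.ker T) (fun D => ?_) ?_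
  · funext i
    have h3 := (aeval_gen_eq_zero Q _).2 (h1 i)
    rw [aeval_eqs] at h3
    have h4 := deriv_eqs G D (gen Q) (Fin.castLE hj i)
    rw [h3, map_zero] at h4
    exact h4.symm
  · have h3 := LinearMap.finrank_range_add_finrank_ker T
    have h4 : LinearMap.range T = ⊤ := by
      rw [hT, LinearMap.range_comp, h.tan_surj ⟨ij.1, ij.2, hij⟩, Submodule.map_top,
        LinearMap.range_eq_top]
      exact LinearMap.funLeft_surjective_of_injective _ _ _ (Fin.castLE_injective hj)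
    rw [h4, finrank_top, Module.finrank_fintype_fun_eq_card,
      Module.finrank_fintype_fun_eq_card, Fintype.card_fin] at h3
    rw [← h3, add_comm]

theorem SmC.wr3 (h : SmC G) (hν : Fintype.card ν = 6) :
    WR ([eqs G (xx k ν) (yy k ν) 0] ++ [eqs G (xx k ν) (yy k ν) 1] ++
      [eqs G (xx k ν) (yy k ν) 2]) := by
  have hm : ∀ i, eqs G (xx k ν) (yy k ν) i ∈ mm k (ν ⊕ ν) := fun i =>
    mem_mm_of_hom (eqs_hom G i) three_pos
  have w0 : WR ([] ++ [eqs G (xx k ν) (yy k ν) 0]) := WR.nil.snoc (hm 0) fun Q hQ _ h2 =>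
    h.height_sub hν (j := 0) (by norm_num) Q fun i => by
      fin_cases i
      exact h2
  have w1 := w0.snoc (hm 1) fun Q hQ h1 h2 =>
    h.height_sub hν (j := 1) (by norm_num) Q fun i => by
      fin_cases i
      · exact h1 (Ideal.subset_span (by simp))
      · exact h2
  exact w1.snoc (hm 2) fun Q hQ h1 h2 =>
    h.height_sub hν (j := 2) (by norm_num) Q fun i => by
      fin_cases i
      · exact h1 (Ideal.subset_span (by simp))
      · exact h1 (Ideal.subset_span (by simp))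
      · exact h2

theorem SmC.eqs0_ne (h : SmC G) (hν : Fintype.card ν = 6) : eqs G (xx k ν) (yy k ν) 0 ≠ 0 := by
  intro h0
  have h1 : WR ([] ++ [eqs G (xx k ν) (yy k ν) 0]) := (h.wr3 hν).init.init
  exact h1.not_mem (h0 ▸ Ideal.zero_mem _)

theorem SmC.nz1 (h : SmC G) (hν : Fintype.card ν = 6) :
    Nz (Ideal.span {eqs G (xx k ν) (yy k ν) 0}) (eqs G (xx k ν) (yy k ν) 1) := by
  intro r hr
  rw [← Ideal.ofList_singleton] at hr ⊢
  refine (h.wr3 hν).init.nz (hom_span fun r hr => ?_) hr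
  rw [List.mem_singleton.1 hr]
  exact ⟨3, eqs_hom G 0⟩

theorem SmC.nz2 (h : SmC G) (hν : Fintype.card ν = 6) :
    Nz (Ideal.span {eqs G (xx k ν) (yy k ν) 0, eqs G (xx k ν) (yy k ν) 1})
      (eqs G (xx k ν) (yy k ν) 2) := by
  intro r hr
  have e : Ideal.span {eqs G (xx k ν) (yy k ν) 0, eqs G (xx k ν) (yy k ν) 1} =
      Ideal.ofList ([eqs G (xx k ν) (yy k ν) 0] ++ [eqs G (xx k ν) (yy k ν) 1]) := by
    rw [Ideal.ofList_append, Ideal.ofList_singleton, Ideal.ofList_singleton, Ideal.span_insert]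
  rw [e] at hr ⊢
  refine (h.wr3 hν).nz ?_ hr
  rw [← e]
  refine hom_span ?_
  rintro _ (rfl | rfl)
  · exact ⟨3, eqs_hom G 0⟩
  · exact ⟨3, eqs_hom G 1⟩

end

end Crest.Agent.X262.Fano21
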