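import Crest.Agent.X262.Fano21.CI

/-!
# Row 262, FANO-ALG (helper21), part 3: the socle of a graded complete intersection

`socle` : `n` forms of degree `e` in `n` variables without common zero; a form `w` of degree
`< n (e - 1)` with `X_s w ∈ (φ)` for all `s` lies in `(φ)`.
-/

set_option autoImplicit false
set_option linter.unusedSectionVars false

open MvPolynomial

namespace Crest.Agent.X262.Fano21

noncomputable section

variable {k : Type} [Field k] [CharZero k] {σ : Type} [Fintype σ]

theorem ofList_perm {R : Type*} [CommRing R] {L L' : List R} (h : L.Perm L') :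
    Ideal.ofList L = Ideal.ofList L' := by
  unfold Ideal.ofList
  congr 1
  ext x
  exact h.mem_iff

theorem card_le_height {Q : Ideal (MvPolynomial σ k)} [Q.IsPrime] (h : mm k σ ≤ Q) :
    (Fintype.card σ : ℕ∞) ≤ Q.height :=
  card_le_height_mm.trans (Ideal.height_mono h)

theorem socle_aux {e : ℕ} (he : 1 ≤ e) : ∀ (B A : List (MvPolynomial σ k)),
    (∀ a ∈ A, a.IsHomogeneous 1) → (∀ b ∈ B, b.IsHomogeneous e) → WR (A ++ B) →
    (A ++ B).length = Fintype.card σ → ∀ d < B.length * (e - 1), ∀ w : MvPolynomial σ k,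
    w.IsHomogeneous d → (∀ s, X s * w ∈ Ideal.ofList (A ++ B)) → w ∈ Ideal.ofList (A ++ B) := by
  intro B
  induction B with
  | nil => intro A _ _ _ _ d hd; simp at hd
  | cons ψ B ih =>
    intro A hA hB hW hlen d hd w hw hm
    set L := A ++ B with hL
    have hp : (A ++ ψ :: B).Perm (L ++ [ψ]) := by
      rw [hL, List.append_assoc]
      exact List.Perm.append_left _ (List.perm_append_singleton ψ B).symm
    have hψ : ψ.IsHomogeneous e := hB ψ (by simp)
    have hW' := hW.perm hp
    have hI : Ideal.ofList (A ++ ψ :: B) = Ideal.ofList L ⊔ Ideal.span {ψ} := by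
      rw [ofList_perm hp, Ideal.ofList_append, Ideal.ofList_singleton]
    have hom : Hom (Ideal.ofList L) := hom_span fun r hr => by
      rcases List.mem_append.1 hr with hr | hr
      · exact ⟨1, hA r hr⟩
      · exact ⟨e, hB r (List.mem_cons_of_mem _ hr)⟩
    have hXm : ∀ r ∈ Submodule.span k (Set.range (X : σ → MvPolynomial σ k)), r ∈ mm k σ := by
      intro r hr
      have : Submodule.span k (Set.range (X : σ → MvPolynomial σ k)) ≤
          (mm k σ).restrictScalars k :=
        Submodule.span_le.2 (by rintro _ ⟨s, rfl⟩; exact X_mem_mm s)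
      exact this hr
    obtain ⟨l, hl, hWl⟩ := hW'.init.step _ hXm fun Q hQ _ h2 => by
      refine le_trans (le_of_eq ?_) (card_le_height (mm_le fun s =>
        h2 _ (Submodule.subset_span ⟨s, rfl⟩)))
      rw [← hlen, hp.length_eq]
      simp
    have hl1 : l.IsHomogeneous 1 := by
      rw [← homogeneousSubmodule_one_eq_span_X] at hl
      exact hl
    have nψ : Nz (Ideal.ofList L) ψ := fun b hb => hW'.nz hom hb
    have nl : Nz (Ideal.ofList L) l := fun b hb => hWl.nz hom hb
    rw [hI] at hm ⊢
    have h1 : l * w ∈ Ideal.ofList L ⊔ Ideal.span {ψ} := by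
      have : Submodule.span k (Set.range (X : σ → MvPolynomial σ k)) ≤
          ((Ideal.ofList L ⊔ Ideal.span {ψ}).colon {w}).restrictScalars k :=
        Submodule.span_le.2 (by
          rintro _ ⟨s, rfl⟩
          exact Submodule.mem_colon_singleton.2 (hm s))
      exact Submodule.mem_colon_singleton.1 (this hl)
    obtain ⟨u, hu⟩ := mem_sup_span.1 h1
    have h2 := hom _ hu (1 + d)
    rw [map_sub, hc_self (hl1.mul hw)] at h2
    by_cases hde : 1 + d < e
    · rw [hc_mul_lt hψ _ hde, sub_zero] at h2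
      exact Ideal.mem_sup_left (nl _ h2)
    obtain ⟨d', hd'⟩ := Nat.exists_eq_add_of_le (not_lt.1 hde)
    rw [hd', hc_mul hψ] at h2
    set u' := homogeneousComponent d' u with hu'
    have hp2 : ((l :: A) ++ B).Perm (L ++ [l]) := by
      rw [hL, List.cons_append]
      exact (List.perm_append_singleton l (A ++ B)).symm
    have hI2 : Ideal.ofList ((l :: A) ++ B) = Ideal.ofList L ⊔ Ideal.span {l} := by
      rw [ofList_perm hp2, Ideal.ofList_append, Ideal.ofList_singleton]
    have h3 := ih (l :: A) (by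
        intro a ha
        rcases List.mem_cons.1 ha with rfl | ha
        · exact hl1
        · exact hA a ha) (fun b hb => hB b (List.mem_cons_of_mem _ hb)) (hWl.perm hp2.symm)
      (by rw [← hlen]; simp; omega) d' (by
        rw [List.length_cons, add_mul, one_mul] at hd
        omega) u' (homogeneousComponent_isHomogeneous _ _) (by
        intro s
        rw [hI2]
        obtain ⟨v, hv⟩ := mem_sup_span.1 (hm s)
        refine mem_sup_span.2 ⟨v, nψ _ ?_⟩
        have : ψ * (X s * u' - l * v) = l * (X s * w - ψ * v) - X s * (l * w - ψ * u') := by ring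
        rw [this]
        exact Ideal.sub_mem _ (Ideal.mul_mem_left _ _ hv) (Ideal.mul_mem_left _ _ h2))
    rw [hI2] at h3
    obtain ⟨v, hv⟩ := mem_sup_span.1 h3
    refine mem_sup_span.2 ⟨v, nl _ ?_⟩
    have : l * (w - ψ * v) = (l * w - ψ * u') + ψ * (u' - l * v) := by ring
    rw [this]
    exact Ideal.add_mem _ h2 (Ideal.mul_mem_left _ _ hv)

variable [IsAlgClosed k]

theorem mm_le_of_zero {ι : Type*} (φ : ι → MvPolynomial σ k)
    (hz : ∀ z : σ → k, (∀ i, eval z (φ i) = 0) → z = 0) {Q : Ideal (MvPolynomial σ k)}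
    (hQ : Q.IsPrime) (h : ∀ i, φ i ∈ Q) : mm k σ ≤ Q := by
  refine mm_le fun s => ?_
  obtain ⟨n, hn⟩ := pow_mem_of_vanish (J := Q) (r := X s) fun z hz' => by
    rw [hz z fun i => hz' _ (h i)]
    simp
  exact hQ.mem_of_pow_mem n hn

/-- **socle** -/
theorem socle {n e : ℕ} (hn : Fintype.card σ = n) (he : 1 ≤ e) (φ : Fin n → MvPolynomial σ k)
    (hφ : ∀ i, (φ i).IsHomogeneous e) (hz : ∀ z : σ → k, (∀ i, eval z (φ i) = 0) → z = 0)
    {d : ℕ} (hd : d < n * (e - 1)) {w : MvPolynomial σ k} (hw : w.IsHomogeneous d)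
    (h : ∀ s, X s * w ∈ Ideal.span (Set.range φ)) : w ∈ Ideal.span (Set.range φ) := by
  obtain ⟨L, h1, h2, h3, h4⟩ := exists_WR_span φ (fun i => mem_mm_of_hom (hφ i) he)
    fun Q hQ hφQ => hn ▸ card_le_height (mm_le_of_zero φ hz hQ hφQ)
  have h5 : ∀ g ∈ L, g.IsHomogeneous e := fun g hg => by
    have : Submodule.span k (Set.range φ) ≤ homogeneousSubmodule σ k e :=
      Submodule.span_le.2 (by rintro _ ⟨j, rfl⟩; exact hφ j)
    exact this (h3 g hg)
  have := socle_aux he L [] (by simp) h5 (by simpa using h2) (by simp [h1, hn]) d (by rwa [h1]) w hw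
    (by simpa [h4] using h)
  simpa [h4] using this

/-- an element of degree `e + 1` of an ideal generated by forms of degree `e` -/
theorem exists_linear {n e : ℕ} (φ : Fin n → MvPolynomial σ k) (hφ : ∀ i, (φ i).IsHomogeneous e)
    {d : ℕ} {w : MvPolynomial σ k} (hw : w.IsHomogeneous (e + d))
    (h : w ∈ Ideal.span (Set.range φ)) :
    ∃ l : Fin n → MvPolynomial σ k, (∀ i, (l i).IsHomogeneous d) ∧ w = ∑ i, φ i * l i := by
  obtain ⟨c, hc⟩ := Ideal.mem_span_range_iff_exists_fun.1 h
  refine ⟨fun i => homogeneousComponent d (c i), fun i => homogeneousComponent_isHomogeneous _ _, ?_⟩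
  rw [← hc_self hw, ← hc, map_sum]
  exact Finset.sum_congr rfl fun i _ => by rw [mul_comm, hc_mul (hφ i)]

end

end Crest.Agent.X262.Fano21
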